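import Crest.Agent.N337.Ld.Law

/-!
# Row 337 (helper77), C10: the cell claims `F1 … F4` and the junk steps that follow from them
-/

set_option autoImplicit false
set_option linter.unusedSectionVars false

namespace Crest.Agent.N337.Ld

open Finset Crest.Agent.N337.Op Crest.Agent.N337.Gas Crest.Agent.N337.Pc Crest.Agent.N337.M

variable {Λ : Type} [Fintype Λ] [DecidableEq Λ] {T : ℕ} [NeZero T] {X α κ : Type} [Fintype X]
  [DecidableEq X] [SemilatticeSup α] [Preorder κ]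

section defs
variable (I : Ins T Λ X α κ) (G : Bs T Λ) (Sd : Finset (Fin T × Λ) → Prop)

/-- class of a configuration with `d` dense parties (`Cd I 0 = I.Cl`). -/
def Cd (d m t : ℕ) (F : Finset X) (R : ℕ) (s : Cfg T Λ) : Prop :=
  Cls I.S d (I.pa s.e) (I.kz s.Z) m t F R

/-- the configurations in which the cell claims are made (`Sd` = any side condition on `Z`). -/
structure Ad (d m nc R : ℕ) (s : Cfg T Λ) (F : Finset X) : Prop where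
  val : G.Val s
  sd : Sd s.Z
  card : F.card ≤ nc
  cl : Cd I d m I.S.tm F R s

/-- **F1** (G4): failing trees of the down loops (`U` = extra killed points). -/
def F1 (y : ℝ) (d m nc R0 R1 : ℕ) (ε : ℝ) : Prop :=
  ∀ s F x U, Ad I G Sd d m nc R0 s F → I.S.Off F R1 x → pb (Op.ex (G.gs (yw y) (s.rev ∅ U)))
    (fun w => Fl I.S d (I.pa s.e) (I.kz s.Z) (I.pa w) m x) ≤ ε
/-- **F2** (ENG): failing trees of the purple loops. -/
def F2 (Y : ℝ) (d m nc R0 R1 : ℕ) (ε : ℝ) : Prop :=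
  ∀ s F x, Ad I G Sd d m nc R0 s F → I.S.Off F R1 x →
    pb (PC G Y s) (fun C => Fl I.S d (I.pa s.e) (I.kz s.Z) (I.pa C) m x) ≤ ε
/-- **F3** (TP): covisit trees for the law `E s` (`EK`, `EH`, `EU`); `U s` = newly killed points. -/
def F3 (E : Cfg T Λ → (Tp T Λ → ℝ) → ℝ) (U : Cfg T Λ → Finset (Fin T × Λ))
    (d m nc R0 R2 R3 : ℕ) (ε : ℝ) : Prop :=
  ∀ s F x, Ad I G Sd d m nc R0 s F → I.S.Off F R3 x → pb (E s) (fun ω =>
    Cls I.S (d + 1 + 1) (I.pa s.e ⊔ I.pa ω.1 ⊔ I.pa ω.2.1) (I.kz s.Z) m I.S.tm F R2 ∧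
    W2 I.S d (I.pa s.e) (I.pa s.e ⊔ I.pa ω.1 ⊔ I.pa ω.2.1) (I.pa ω.2.2) (I.kz s.Z)
      (I.kz (s.Z ∪ U s)) m x) ≤ ε
/-- the same for the children of a cell of scale `m + 1`. -/
def N1 (y : ℝ) (d m : ℕ) (ε : ℝ) : Prop :=
  ∀ s x, Ad I G Sd d (m + 1) 0 0 s ∅ →
    pb (Op.ex (G.gs (yw y) s)) (fun w => Fn I.S d (I.pa s.e) (I.kz s.Z) (I.pa w) m x) ≤ ε
def N2 (Y : ℝ) (d m : ℕ) (ε : ℝ) : Prop :=
  ∀ s x, Ad I G Sd d (m + 1) 0 0 s ∅ →
    pb (PC G Y s) (fun C => Fn I.S d (I.pa s.e) (I.kz s.Z) (I.pa C) m x) ≤ ε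
def N3 (E : Cfg T Λ → (Tp T Λ → ℝ) → ℝ) (d m : ℕ) (ε : ℝ) : Prop :=
  ∀ s x, Ad I G Sd d (m + 1) 0 0 s ∅ → pb (E s) (fun ω =>
    Cls I.S (d + 1 + 1) (I.pa s.e ⊔ I.pa ω.1 ⊔ I.pa ω.2.1) (I.kz s.Z) (m + 1) I.S.tm ∅ 0 ∧
    Wn I.S d (I.pa s.e) (I.pa s.e ⊔ I.pa ω.1 ⊔ I.pa ω.2.1) (I.pa ω.2.2) (I.kz s.Z) m x) ≤ ε
/-- **F4**: the loop of a given point is rarely marked. -/
def F4 (Y : ℝ) (μ : Lp T Λ → ℝ) (d m : ℕ) (π : ℝ) : Prop :=
  ∀ s v, Ad I G Sd d m 0 0 s ∅ → JC G Y μ s (fun c => ct (fun g => v ∈ g.2) c.2) ≤ π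

/-- the three claims of one step. -/
structure F123 (y Y : ℝ) (E : Cfg T Λ → (Tp T Λ → ℝ) → ℝ) (U : Cfg T Λ → Finset (Fin T × Λ))
    (d m nc R0 R1 R2 R3 : ℕ) (ε : ℝ) : Prop where
  e0 : 0 ≤ ε
  f1 : F1 I G Sd y d m nc R0 R1 ε
  f2 : F2 I G Sd Y (d + 1) m nc R1 R2 ε
  f3 : F3 I G Sd E U d m nc R0 R2 R3 ε

/-- (geometry) few living cells. -/
def AlvH (N m nD : ℕ) : Prop :=
  ∀ s : Cfg T Λ, s.Sup N → ∃ Dm : Finset X, Dm.card ≤ nD ∧ Alv I.S (I.kz s.Z) m Dm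

/-- (geometry, slowness) good pins that come within `r` of a cell pass one of `nA` anchors. -/
def Anc (d m r nA : ℕ) : Prop :=
  ∀ x : X, ∃ An : Finset (Fin T × Λ), An.card ≤ nA ∧ ∀ s B, Ad I G Sd d m 0 0 s ∅ → B ⊆ s.e →
    (∀ g ∈ B, ¬ Hit s.Z g) → Nr I.S {x} r (I.pa B) → ∃ g ∈ B, ∃ v ∈ An, v ∈ g.2

/-- the classes; `Fc` reads the cover from `s.cv`. -/
structure Kl (N nc d m t : ℕ) (Fc : Finset Λ → Finset X) (R : ℕ) (s : Cfg T Λ) : Prop where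
  sup : s.Sup N
  sd : Sd s.Z
  card : (Fc s.cv).card ≤ nc
  cl : Cd I d m t (Fc s.cv) R s

end defs

variable {I : Ins T Λ X α κ} {G : Bs T Λ} {Sd : Finset (Fin T × Λ) → Prop}
  {d m t N nc nD nA r R R0 R1 R2 R3 : ℕ} {y y' Y ε ε' π : ℝ} {μ W D : Lp T Λ → ℝ} {s : Cfg T Λ}
  {F : Finset X} {Fc : Finset Λ → Finset X} {U U' : Cfg T Λ → Finset (Fin T × Λ)}
  {w x : Finset (Lp T Λ)} {In Out : Cfg T Λ → Prop}

theorem cd_add : Cd I d m t F R (s.add x) ↔ Cls I.S d (I.pa s.e ⊔ I.pa x) (I.kz s.Z) m t F R := by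
  rw [← I.pa_union]; rfl

theorem Cd.of_add (h : Cd I d m t F R (s.add x)) : Cd I d m t F R s :=
  (cd_add.1 h).mono le_rfl le_sup_left le_rfl le_rfl Subset.rfl le_rfl

theorem Cd.sub {x' : Finset (Lp T Λ)} (h : Cd I d m t F R (s.add x)) (hx : x' ⊆ x) :
    Cd I d m t F R (s.add x') :=
  Cls.mono h le_rfl (Ins.pa_mono (union_subset_union_right hx)) le_rfl le_rfl Subset.rfl le_rfl

theorem Kl.ad (h : Kl I Sd N nc d m t Fc R s) (hs : G.Val s) (ht : t ≤ I.S.tm) :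
    Ad I G Sd d m nc R s (Fc s.cv) :=
  ⟨hs, h.sd, h.card, Cls.mono h.cl le_rfl le_rfl le_rfl ht Subset.rfl le_rfl⟩

theorem Kl.add {d' t' R' : ℕ} (h : Kl I Sd N nc d m t Fc R s)
    (h' : Cd I d' m t' (Fc s.cv) R' (s.add x)) : Kl I Sd N nc d' m t' Fc R' (s.add x) :=
  ⟨h.sup, h.sd, h.card, h'⟩

theorem Kl.anti : Cfg.Anti (Kl I Sd N nc d m t Fc R) := fun _ _ h => ⟨h.sup, h.sd, h.card, h.cl.of_add⟩

theorem Kl.mono {d' t' R' : ℕ} (h : Kl I Sd N nc d m t Fc R s) (hd : d ≤ d') (ht : t ≤ t')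
    (hR : R ≤ R') : Kl I Sd N nc d' m t' Fc R' s :=
  ⟨h.sup, h.sd, h.card, Cls.mono h.cl hd le_rfl le_rfl ht Subset.rfl hR⟩

theorem Ad.add {d' R' : ℕ} (h : Ad I G Sd d m nc R s F) (hx : G.Val (s.add x))
    (h' : Cls I.S d' (I.pa s.e ⊔ I.pa x) (I.kz s.Z) m I.S.tm F R') :
    Ad I G Sd d' m nc R' (s.add x) F := ⟨hx, h.sd, h.card, cd_add.2 h'⟩

theorem rev_empty (s : Cfg T Λ) : s.rev ∅ ∅ = s := by simp [Cfg.rev]

theorem F1.base (f : F1 I G Sd y d m nc R0 R1 ε) {x : X} (a : Ad I G Sd d m nc R0 s F)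
    (hx : I.S.Off F R1 x) :
    pb (Op.ex (G.gs (yw y) s)) (fun w => Fl I.S d (I.pa s.e) (I.kz s.Z) (I.pa w) m x) ≤ ε := by
  have := f s F x ∅ a hx
  rwa [rev_empty] at this

/-- standing assumptions. -/
structure Std (G : Bs T Λ) (y Y : ℝ) (μ : Lp T Λ → ℝ) : Prop where
  ok : G.Ok
  y0 : 0 ≤ y
  Y0 : 0 ≤ Y
  Y1 : Y ≤ 1
  μ : ∀ g, 0 ≤ μ g ∧ μ g ≤ 1

section EG
variable {A0 : Type} [Fintype A0] [DecidableEq A0] {ν : A0 → ℝ} {w0 : A0 → Finset (Lp T Λ)}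
  {B0 : A0 → Finset (Lp T Λ) → Finset (Lp T Λ)}

/-- a claim on the purple loops, made in the children. -/
theorem EG_child (h : Std G y Y μ) (hν : Pr ν) (h0 : 0 ≤ ε) {Q : Finset (Lp T Λ) → Prop}
    {P : Finset (Lp T Λ) → Finset (Lp T Λ) → Prop}
    (f : ∀ a, ν a ≠ 0 → Q (w0 a) → pb (PC G Y (s.add (w0 a))) (P (w0 a)) ≤ ε) :
    pb (EG G Y μ s ν w0 B0) (fun ω => Q ω.1 ∧ P ω.1 ω.2.1) ≤ ε := by
  refine EG_le hν fun a ha => ?_
  have hJ := pl_JC h.ok h.Y0 h.Y1 h.μ (s.add (w0 a))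
  by_cases hq : Q (w0 a)
  · exact ((hJ.pb_imp fun _ _ h => h.2).trans_eq (pb_purple _)).trans (f a ha hq)
  · exact (hJ.pb_null fun _ _ h => hq h.1).trans h0

theorem tri_EG (h : Std G y Y μ) (hν : Pr ν) (hv : ∀ a, ν a ≠ 0 → G.Val (s.add (w0 a)))
    (hB : ∀ a B, B0 a B ⊆ w0 a ∪ B) (hw : ∀ P : Finset (Lp T Λ) → Prop,
      pb (Op.ex ν) (fun a => P (w0 a)) = pb (Op.ex (G.gs (yw y) s)) P)
    {E : Cfg T Λ → (Tp T Λ → ℝ) → ℝ} (hE : E s = EG G Y μ s ν w0 B0)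
    (f : F123 I G Sd y Y E U d m nc R0 R1 R2 R3 ε) (a : Ad I G Sd d m nc R0 s F) :
    Tri I.S (pb (E s)) (fun ω => I.pa ω.1) (fun ω => I.pa ω.2.1) (fun ω => I.pa ω.2.2) d
      (I.pa s.e) (I.kz s.Z) (I.kz (s.Z ∪ U s)) m F R1 R2 R3 ε := by
  have hP := pl_EG (s := s) (w0 := w0) (B0 := B0) h.ok h.Y0 h.Y1 h.μ hν.nn
  refine ⟨hE ▸ hP.sub, f.e0, ?_, fun x hx => ?_, fun x hx => ?_, fun x hx => f.f3 s F x a hx⟩
  · rw [hE]
    refine hP.pb_null fun ω ⟨b, c, _, h2, h3⟩ hn => hn ?_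
    subst h3
    rw [← I.pa_union]
    exact Ins.pa_mono ((hB b c.2).trans (union_subset_union_right h2.2.2.1))
  · rw [hE, EG_fst fun w => Fl I.S d (I.pa s.e) (I.kz s.Z) (I.pa w) m x,
      hw fun w => Fl I.S d (I.pa s.e) (I.kz s.Z) (I.pa w) m x]
    exact f.f1.base a hx
  · rw [hE]
    refine EG_child h hν f.e0
      (Q := fun w => Cls I.S (d + 1) (I.pa s.e ⊔ I.pa w) (I.kz s.Z) m I.S.tm F R1)
      (P := fun w C => Fl I.S (d + 1) (I.pa s.e ⊔ I.pa w) (I.kz s.Z) (I.pa C) m x) fun b hb hq => ?_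
    rw [← I.pa_union]
    exact f.f2 (s.add (w0 b)) F x (a.add (hv b hb) hq) hx

end EG

theorem Std.pr (h : Std G y Y μ) (s : Cfg T Λ) : Pr (G.gs (yw y) s) := h.ok.pr (yw_nn h.y0) s

theorem Std.zero (h : Std G y Y μ) : Std G y Y fun _ => 0 := ⟨h.ok, h.y0, h.Y0, h.Y1, by simp⟩

theorem pl_EK (h : Std G y Y μ) (s : Cfg T Λ) : PL (EK G y Y μ s) fun ω =>
    G.gs (yw y) s ω.1 ≠ 0 ∧ SpC G μ (s.add ω.1) ω.2 :=
  (pl_EG h.ok h.Y0 h.Y1 h.μ (h.pr s).nn).weaken fun _ ⟨_, _, h1, h2, h3⟩ => h3 ▸ ⟨h1, h2⟩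

theorem triK (h : Std G y Y μ) 
    (f : F123 I G Sd y Y (EK G y Y μ) (fun _ => ∅) d m nc R0 R1 R2 R3 ε) (a : Ad I G Sd d m nc R0 s F) :
    Tri I.S (pb (EK G y Y μ s)) (fun ω => I.pa ω.1) (fun ω => I.pa ω.2.1) (fun ω => I.pa ω.2.2) d
      (I.pa s.e) (I.kz s.Z) (I.kz s.Z) m F R1 R2 R3 ε := by
  have := tri_EG h (h.pr s) (fun _ hw => a.val.add (Bs.gs_supp hw).1)
    (fun _ _ => subset_union_right) (fun _ => rfl) rfl f a
  rwa [union_empty] at this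

open Classical in
/-- **StepV**: the gas has extra killed points. -/
theorem stepV (h : Std G y Y μ) (h0 : 0 ≤ ε) (f : F1 I G Sd y d m nc R0 R1 ε)
    (hA : AlvH I N m nD) (hd : I.S.k0 + I.S.oc + d ≤ I.S.tm) (ht : t ≤ I.S.tm) (hR : R0 ≤ R1)
    (hI : ∀ s, In s → Kl I Sd N nc d m t Fc R0 s)
    (hO : ∀ s x, In s → Cd I (d + 1) m (t + 1) (Fc s.cv) R1 (s.add x) → Out (s.add x))
    (s : Cfg T Λ) (hs : G.Val s) (hi : In s) (V : Finset (Fin T × Λ)) :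
    Op.ex (G.gs (yw y) (s.rev ∅ V)) (Op.ind fun w => ¬ Out (s.add w)) ≤ nD * ε := by
  have k := hI s hi
  obtain ⟨Dm, h1, h2⟩ := hA s k.sup
  have hP := pl_ex (h.pr (s.rev ∅ V)).nn
  rw [← pb_eq (Op.ex _)]
  refine (hP.pb_imp fun w _ hw => ⟨k.cl, fun hc => hw (hO s w hi (cd_add.2 hc))⟩).trans
    ((den (E := fun _ => I.pa s.e) (w := I.pa) hP.sub h0 hd ht hR h2 fun x hx =>
      (hP.pb_imp fun _ _ h => h.2).trans (f s _ x V (k.ad hs ht) hx)).trans (by gcongr))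

/-- **StepW** -/
theorem stepW (h : Std G y Y μ) (h0 : 0 ≤ ε) (f : F1 I G Sd y d m nc R0 R1 ε)
    (hA : AlvH I N m nD) (hd : I.S.k0 + I.S.oc + d ≤ I.S.tm) (ht : t ≤ I.S.tm) (hR : R0 ≤ R1)
    (hI : ∀ s, In s → Kl I Sd N nc d m t Fc R0 s)
    (hO : ∀ s x, In s → Cd I (d + 1) m (t + 1) (Fc s.cv) R1 (s.add x) → Out (s.add x)) :
    G.StepW y In Out (nD * ε) := fun s hs hi => by
  have := stepV h h0 f hA hd ht hR hI hO s hs hi ∅
  rwa [rev_empty] at this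

/-- **StepB** -/
theorem stepB (h : Std G y Y μ) (hy : y ≤ Y) (h0 : 0 ≤ ε) (f : F2 I G Sd Y d m nc R0 R1 ε)
    (hA : AlvH I N m nD) (hd : I.S.k0 + I.S.oc + d ≤ I.S.tm) (ht : t ≤ I.S.tm) (hR : R0 ≤ R1)
    (hI : ∀ s, In s → Kl I Sd N nc d m t Fc R0 s)
    (hO : ∀ s x, In s → Cd I (d + 1) m (t + 1) (Fc s.cv) R1 (s.add x) → Out (s.add x)) :
    G.StepB y In Out (N * (nD * ε)) := fun s hs hi => by
  have k := hI s hi
  obtain ⟨Dm, h1, h2⟩ := hA s k.sup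
  have hW : ∀ g : Lp T Λ, 0 ≤ yw y g ∧ yw y g ≤ yw Y g := fun g =>
    ⟨yw_nn h.y0 g, by rw [yw_eq, yw_eq]; exact pow_le_pow_left₀ h.y0 hy _⟩
  have hP := pl_JC h.ok h.Y0 h.Y1 (mk_mem hW) s
  rw [birth_eq h.ok hW hs]
  refine (hP.le_pb (c := N) (A := fun c => Cd I d m t (Fc s.cv) R0 s ∧ ¬ Cls I.S (d + 1)
    (I.pa s.e ⊔ I.pa c.1) (I.kz s.Z) m (t + 1) (Fc s.cv) R1) (fun c hc _ => (ct_le _ _).trans
      (Nat.cast_le.2 (SpC.card_le (w := ∅) k.sup (by rwa [Cfg.add_empty]))))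
    fun c hc hn => ct_zero fun g hg ho => hn ⟨k.cl, fun h3 => ho (hO s _ hi
      ((cd_add.2 h3).sub (singleton_subset_iff.2 (hc.2.2.1 hg))))⟩).trans
    (mul_le_mul_of_nonneg_left ?_ (Nat.cast_nonneg _))
  refine (den (E := fun _ => I.pa s.e) (w := fun c : _ × _ => I.pa c.1) hP.sub h0 hd ht hR h2
    fun x hx => ?_).trans (by gcongr)
  exact ((hP.pb_imp fun _ _ h => h.2).trans_eq (pb_purple _)).trans (f s _ x (k.ad hs ht) hx)

/-- **StepH** -/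
theorem stepH (h : Std G y Y μ) (h0 : 0 ≤ y') (hy : y' ≤ y)
    (f : F123 I G Sd y Y (EH G (yw y) y' Y) (fun _ => ∅) d m nc R0 R1 R2 R3 ε)
    (hA : AlvH I N m nD) (n : Rom I.S d t R0 R1 R2 R3) (hI : ∀ s, In s → Kl I Sd N nc d m t Fc R0 s)
    (hO : ∀ s x, In s → Cd I d m (t + 1) (Fc s.cv) R3 (s.add x) → Out (s.add x)) :
    G.StepH (yw y) y' In Out (3 * nD * ε) := fun s hs hi => by
  classical
  have k := hI s hi
  obtain ⟨Dm, h1, h2⟩ := hA s k.sup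
  have hν := pr_m2 (W := yw y) h.ok h0 (fun g => by
    rw [yw_eq, yw_eq]; exact sub_nonneg.2 (pow_le_pow_left₀ h0 hy _)) s
  have tr := tri_EG h.zero hν (fun _ hX => m2_val hs hX) (B0 := fun X _ => fg (Pc.hi X))
    (fun X _ g hg => mem_union_left _ (by
      obtain ⟨a, ha⟩ := mem_fg.1 hg; exact mem_fg.2 ⟨a, (mem_filter.1 ha).1⟩))
    (fun P => by rw [pb_eq, pb_eq, ← Pl.ex_m2 (yw y) y' s]; rfl) rfl f
    (k.ad hs (by have := n.t; omega))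
  rw [union_empty] at tr
  have e0 := f.e0
  rw [hE_eq Y]
  refine le_trans (le_of_eq (pb_eq _ fun ω : Tp T Λ => ¬ Out (s.add ω.2.2)).symm)
    ((tr.sub.mono _ _ fun ω hω hc => hω (hO s _ hi (cd_add.2 (hc.cls k.cl
      (n.r1.trans (n.r2.trans n.r3)))))).trans ((tr.step n h2 k.cl le_rfl).trans (by gcongr)))

open Classical in
/-- **StepX**: the loops that meet `U s` are pinned, `U' s` is killed. -/
theorem stepX (h : Std G y Y μ)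
    (f : F123 I G Sd y Y (fun s => EU G y Y (U s) s) U' d m nc R0 R1 R2 R3 ε)
    (hA : AlvH I N m nD) (n : Rom I.S d t R0 R1 R2 R3)
    (hI : ∀ s, In s → Kl I Sd N nc d m t Fc R0 s)
    (hO : ∀ s x, In s → Cd I d m (t + 1) (Fc s.cv) R3 (s.rev x (U' s)) → Out (s.rev x (U' s)))
    (s : Cfg T Λ) (hs : G.Val s) (hi : In s) : Op.ex (G.gs (yw y) s)
      (Op.ind fun w => ¬ Out (s.rev (w.filter (Hit (U s))) (U' s))) ≤ 3 * nD * ε := by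
  have k := hI s hi
  obtain ⟨Dm, h1, h2⟩ := hA s k.sup
  have tr := tri_EG h.zero (h.pr s) (fun _ hw => hs.add (Bs.gs_supp hw).1)
    (B0 := fun w _ => w.filter (Hit (U s))) (w0 := id)
    (fun _ _ => (filter_subset _ _).trans subset_union_left) (fun _ => rfl) rfl f
    (k.ad hs (by have := n.t; omega))
  have e0 := f.e0
  refine le_trans (le_of_eq ((gs_eq Y (U s) (Op.ind fun B => ¬ Out (s.rev B (U' s)))).trans
    (pb_eq _ fun ω : Tp T Λ => ¬ Out (s.rev ω.2.2 (U' s))).symm))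
    ((tr.sub.mono _ _ fun ω hω hc => hω (hO s _ hi ?_)).trans
      ((tr.step n h2 k.cl (I.kz_mono subset_union_left)).trans (by gcongr)))
  have := hc.cls k.cl (n.r1.trans (n.r2.trans n.r3))
  rwa [← I.pa_union] at this

/-- **StepU** -/
theorem stepU (h : Std G y Y μ)
    (f : F123 I G Sd y Y (fun s => EU G y Y (U s) s) U d m nc R0 R1 R2 R3 ε)
    (hA : AlvH I N m nD) (n : Rom I.S d t R0 R1 R2 R3)
    (hI : ∀ s, In s → Kl I Sd N nc d m t Fc R0 s)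
    (hO : ∀ s x, In s → Cd I d m (t + 1) (Fc s.cv) R3 (s.rev x (U s)) → Out (s.rev x (U s))) :
    G.StepU y U In Out (3 * nD * ε) := stepX h f hA n hI hO

theorem rev_eq_add (s : Cfg T Λ) (x : Finset (Lp T Λ)) : s.rev x ∅ = s.add x := by
  simp [Cfg.rev, Cfg.add]

/-- the mean number of marked loops that break the step. -/
theorem rate_stp (h : Std G y Y μ)
    (f : F123 I G Sd y Y (EK G y Y μ) (fun _ => ∅) d m nc R0 R1 R2 R3 ε) (n : Rom I.S d t R0 R1 R2 R3)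
    (hs : G.Val s) (hN : s.Sup N) (hS : Sd s.Z) (hF : F.card ≤ nc)
    (hc : Cd I d m t F R0 s) {Dm : Finset X} (hA : Alv I.S (I.kz s.Z) m Dm) :
    EK G y Y μ s (fun ω => ct (fun g => ¬ Stp I.S d (I.pa s.e) (I.pa {g}) (I.kz s.Z) (I.kz s.Z) m
      F R3) ω.2.2) ≤ N * (3 * Dm.card * ε) := by
  have tr := triK h f ⟨hs, hS, hF, Cls.mono hc le_rfl le_rfl le_rfl (by have := n.t; omega)
    Subset.rfl le_rfl⟩
  exact ((pl_EK h s).le_pb (fun ω hω _ => (ct_le _ _).trans (Nat.cast_le.2 (hω.2.card_le hN)))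
    fun ω _ hn => ct_zero fun g hg ho => ho ((not_not.1 hn).mono
      (Ins.pa_mono (singleton_subset_iff.2 hg)))).trans
    (mul_le_mul_of_nonneg_left (tr.step n hA hc le_rfl) (Nat.cast_nonneg _))

theorem ct_mono {P P' : Lp T Λ → Prop} {B : Finset (Lp T Λ)} (h : ∀ g ∈ B, P g → P' g) :
    ct P B ≤ ct P' B :=
  (ct_or (P2 := fun _ => False) fun g hg k => .inl (h g hg k)).trans
    (by linarith [ct_zero (P := fun _ => False) (B := B) fun _ _ h => h])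

/-- **StepM** -/
theorem stepM (h : Std G y Y (mk D Y)) (hD : ∀ g, 0 ≤ D g ∧ D g ≤ yw Y g)
    (f : F123 I G Sd y Y (EK G y Y (mk D Y)) (fun _ => ∅) d m nc R0 R1 R2 R3 ε)
    (hA : AlvH I N m nD) (n : Rom I.S d t R0 R1 R2 R3) (hI : ∀ s, In s → Kl I Sd N nc d m t Fc R0 s)
    (hO : ∀ s x, In s → Cd I d m (t + 1) (Fc s.cv) R3 (s.add x) → Out (s.add x)) :
    G.StepM y D In Out (N * (3 * nD * ε)) := fun s hs hi => by
  have k := hI s hi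
  obtain ⟨Dm, h1, h2⟩ := hA s k.sup
  have e0 := f.e0
  rw [NmC_eq hD hs]
  exact ((pl_EK h s).mono _ _ fun ω _ => ct_mono fun g _ ho hc => ho (hO s _ hi
    (cd_add.2 (hc.cls k.cl (n.r1.trans (n.r2.trans n.r3)))))).trans
    ((rate_stp h f n hs k.sup k.sd k.card k.cl h2).trans (by gcongr))

end Crest.Agent.N337.Ld
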