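import Crest.Agent.N337.Ld.Lad
import Crest.Agent.N337.I.Alv
import Crest.Agent.N337.A.Lat

/-!
# Row 337 (helper77): covers on the concrete rung (`Few`, the cover of `Tch.cov`)
-/

set_option autoImplicit false
set_option linter.unusedSectionVars false

namespace Crest.Agent.N337.Ld

open Finset Crest.Agent.N337.Free Crest.Agent.N337.I

variable {L n T : ℕ} [NeZero L] [NeZero T] (ex ey : Fin T → Tor 3 L × Fin n) (P : I.Num)
  (z0 : Tor 3 L)

theorem pi_surj [NeZero n] : Function.Surjective (ins ex ey P z0).π := fun x => ⟨(x, 0), rfl⟩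

/-- the ball of a cell is covered by the children of 27 cells. -/
theorem cov_ins {m t : ℕ} (h : 9 * t * P.H m ≤ 2 * P.ρ (m + 1)) (x : Tor 3 L) :
    ∃ Q : Finset (Tor 3 L), Q.card ≤ 27 ∧ ∀ y, (ins ex ey P z0).S.d x y ≤
      (ins ex ey P z0).S.ρ (m + 1) → ∃ p ∈ Q, (ins ex ey P z0).S.In m t p y := by
  obtain ⟨Q, h1, -, h2⟩ := cover x 1 (P.ρ (m + 1) - 3 * t * P.H m)
  have e : 9 * t * P.H m = 3 * (3 * t * P.H m) := by ring
  refine ⟨Q, h1, fun y hy => (h2 y (le_trans hy ?_)).imp fun p hp => ⟨hp.1, ?_⟩⟩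
  · change P.ρ (m + 1) ≤ _
    omega
  · have := hp.2
    change tdist p y + 3 * t * P.H m ≤ P.ρ (m + 1)
    omega

/-- the alive points have diameter `≤ σ`: the living cells are children of one cell. -/
theorem few_ins {m t σ : ℕ} {Z : Finset (V L n T)}
    (hB : ∀ u, u ∉ Z → ∀ v, v ∉ Z → tdist u.2.1 v.2.1 ≤ σ)
    (h : σ + (ins ex ey P z0).S.loc m + 1 + 3 * t * P.H m ≤ P.ρ (m + 1)) :
    Few (ins ex ey P z0) m t 1 ((2 * (σ + (ins ex ey P z0).S.loc m + 1) + 1) ^ 3) Z := by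
  by_cases hZ : ∃ u, u ∉ Z
  · obtain ⟨u, hu⟩ := hZ
    refine ⟨{u.2.1}, univ.filter fun x => tdist u.2.1 x ≤ σ + (ins ex ey P z0).S.loc m + 1, le_rfl,
      card_ball_le _ _, fun x hx z hz z' hz' => mem_kil.2 fun s c => ?_,
      fun y hy => ⟨_, mem_singleton_self _, ?_⟩⟩
    · by_contra k
      refine hx (mem_filter.2 ⟨mem_univ _, ?_⟩)
      have a1 := hB u hu _ k
      have a2 : tdist x z ≤ (ins ex ey P z0).S.loc m := hz
      have a3 := tdist_triangle u.2.1 z' x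
      have a4 := tdist_triangle x z z'
      rw [tdist_comm x z'] at a4
      simp only at a1
      omega
    · exact (Nat.add_le_add_right (mem_filter.1 hy).2 _).trans h
  · refine ⟨∅, ∅, by simp, by simp, fun x _ z _ z' _ => mem_kil.2 fun s c => ?_, by simp⟩
    by_contra k
    exact hZ ⟨_, k⟩

/-- `Few` in a box of diameter `≤ σ`. -/
theorem few_box {m t σ : ℕ} {B : Finset (Tor 3 L × Fin n)}
    (hB : ∀ x ∈ B, ∀ z ∈ B, tdist x.1 z.1 ≤ σ)
    (h : σ + (ins ex ey P z0).S.loc m + 1 + 3 * t * P.H m ≤ P.ρ (m + 1)) (Z : Finset (V L n T)) :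
    Few (ins ex ey P z0) m t 1 ((2 * (σ + (ins ex ey P z0).S.loc m + 1) + 1) ^ 3)
      (Z ∪ A.cyl Bᶜ) :=
  have k : ∀ u, u ∉ Z ∪ A.cyl Bᶜ → u.2 ∈ B := fun u hu => by
    by_contra c
    exact hu (mem_union_right _ (by simpa [A.cyl] using c))
  few_ins ex ey P z0 (fun u hu v hv => hB _ (k u hu) _ (k v hv)) h

/-- a set of diameter `≤ σ` has few slots. -/
theorem card_diam {σ : ℕ} {B : Finset (Tor 3 L × Fin n)}
    (hB : ∀ x ∈ B, ∀ z ∈ B, tdist x.1 z.1 ≤ σ) : B.card ≤ n * (2 * σ + 1) ^ 3 := by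
  rcases B.eq_empty_or_nonempty with rfl | ⟨x, hx⟩
  · simp
  refine (card_le_card (t := (univ.filter fun z => tdist x.1 z ≤ σ) ×ˢ univ) fun z hz =>
    mem_product.2 ⟨mem_filter.2 ⟨mem_univ _, hB x hx z hz⟩, mem_univ _⟩).trans ?_
  rw [card_product, card_univ, Fintype.card_fin, mul_comm]
  exact Nat.mul_le_mul_left _ (card_ball_le _ _)

/-- the range of the rung does not depend on the torus. -/
def locN (P : I.Num) : ℕ → ℕ
  | 0 => P.ρ 0
  | m + 1 => P.ρ (m + 1) + locN P m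

theorem loc_ins (m : ℕ) : (ins ex ey P z0).S.loc m = locN P m := by
  induction m with
  | zero => rfl
  | succ m ih => exact congrArg (P.ρ (m + 1) + ·) ih

end Crest.Agent.N337.Ld
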