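import Crest.Agent.N337.Ld.Abs
import Crest.Agent.N337.Pe.Av
import Crest.Agent.N337.TK.Defs

/-!
# Row 337 (helper77), C10: reduction to child models, purple loops with marks

`J ex ey p b μ F` = mean of `F ξ C B`: coins `ξ ~ Pw p`, purple loops `C` (alive with probability
`ub b`), marked loops `B ⊆ C` (marked with probability `μ`).
-/

set_option autoImplicit false
set_option linter.unusedSectionVars false

namespace Crest.Agent.N337.Ld

open Finset Crest.Agent.N337.Op Crest.Agent.N337.Gas Crest.Agent.N337.Pc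
open Crest.Agent.N337.Rep (Pw Pw_nonneg sum_Pw)

section abs
variable {Γ : Type} [Fintype Γ] [DecidableEq Γ] {q : Finset Γ → ℝ} {u : Γ → ℝ}

theorem gw_up (hq : Cpt q) {g : Γ} (hg : q {g} ≠ 0) (w : Finset Γ) :
    gw q u w * up q w g = q {g} * gw (sh q {g}) (off (· ∈ ({g} : Finset Γ)) u) w := by
  rw [gw_off, up]
  by_cases h : g ∈ w
  · rw [if_pos h, if_neg, mul_zero, mul_zero]
    exact fun h' => filter_eq_empty_iff.1 h' h (mem_singleton_self g)
  · rw [if_neg h, if_pos (filter_eq_empty_iff.2 fun x hx hx' => h ((mem_singleton.1 hx' : x = g) ▸ hx))]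
    simp only [gw, sh, union_comm {g} w]
    by_cases h0 : q w = 0
    · have : q (w ∪ {g}) = 0 := by
        by_contra h1; exact hq.ne_of_sub subset_union_left h1 h0
      simp only [this, h0, zero_div, zero_mul, mul_zero]
    · field_simp

theorem up_zero (hq : Cpt q) {g : Γ} (hg : q {g} = 0) (w : Finset Γ) : up q w g = 0 := by
  have : q (w ∪ {g}) = 0 := by
    by_contra h1; exact hq.ne_of_sub subset_union_right h1 hg
  rw [up, sh, this, zero_div, ite_self]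

theorem up_nn (hq : Cpt q) (w : Finset Γ) (g : Γ) : 0 ≤ up q w g := by
  unfold up; split_ifs; exacts [le_rfl, div_nonneg (hq.nn _) (hq.nn _)]

theorem P1_nn (hq : Cpt q) (hu : ∀ g, 0 ≤ u g) (g : Γ) : 0 ≤ P1 q u g :=
  ex_nn (nu_nn hq hu) fun w => up_nn hq w g

/-- **the medium given that `g` is an up loop is the medium of the child.** -/
theorem ex_up (hq : Cpt q) (hu : ∀ g, 0 ≤ u g) {g : Γ} (hg : q {g} ≠ 0) (f : Finset Γ → ℝ) :
    ex (nu q u) (fun w => f w * up q w g) = P1 q u g * ex (med q u {g}) f := by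
  have z := (Gas.gZ_pos (hq.sh hg) (off_nn (Q := (· ∈ ({g} : Finset Γ))) hu)).ne'
  have k : ∀ f : Finset Γ → ℝ, ∑ w, gw q u w * (f w * up q w g) =
      q {g} * ∑ w, gw (sh q {g}) (off (· ∈ ({g} : Finset Γ)) u) w * f w := fun f => by
    rw [mul_sum]
    exact sum_congr rfl fun w _ => by rw [mul_left_comm, gw_up hq hg]; ring
  have k1 := k fun _ => 1
  simp only [one_mul, mul_one] at k1
  rw [P1, med, ex_nu, ex_nu, ex_nu, k, k1, ← gZ]
  field_simp

theorem up2_eq (hq : Cpt q) {g : Γ} (hg : q {g} ≠ 0) (w : Finset Γ) (g' : Γ) :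
    up2 q w g g' = up (sh q {g}) w g' * up q w g := by
  unfold up2 up
  by_cases h1 : g ∈ w
  · simp [h1]
  by_cases h2 : g' ∈ w
  · simp [h2]
  simp only [h1, h2, or_self, if_false, sh]
  have e : {g} ∪ (w ∪ {g'}) = w ∪ {g, g'} := by ext; simp; tauto
  rw [e, union_comm {g} w]
  by_cases h0 : q (w ∪ {g}) = 0
  · have : q (w ∪ {g, g'}) = 0 := by
      by_contra h; exact hq.ne_of_sub (union_subset_union_right (by simp)) h h0
    simp only [this, zero_div, zero_mul]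
  · field_simp

theorem P2_eq (hq : Cpt q) (hu : ∀ g, 0 ≤ u g) {g : Γ} (hg : q {g} ≠ 0) (g' : Γ) :
    P2 q u g g' = P1 q u g * P1 (sh q {g}) (off (· ∈ ({g} : Finset Γ)) u) g' := by
  simp only [P2, up2_eq hq hg]
  exact ex_up hq hu hg _

theorem sh_sh {A B : Finset Γ} (hA : q A ≠ 0) : sh (sh q A) B = sh q (A ∪ B) := by
  funext C
  simp only [sh, union_assoc]
  by_cases h : q (A ∪ B) = 0
  · simp [h]
  · field_simp

theorem off_off (A B : Finset Γ) : off (· ∈ B) (off (· ∈ A) u) = off (· ∈ A ∪ B) u := by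
  funext g
  by_cases h1 : g ∈ A <;> by_cases h2 : g ∈ B <;> simp [off, h1, h2]

theorem med_med {A B : Finset Γ} (hA : q A ≠ 0) :
    med (sh q A) (off (· ∈ A) u) B = med q u (A ∪ B) := by
  rw [med, med, sh_sh hA, off_off]

/-! ### thinning -/

theorem sum_bw (D : Γ → ℝ) (X : Finset Γ) (f : Finset Γ → ℝ) :
    ∑ B ∈ X.powerset, bw D X B * f B = Pe.av D X f := by
  refine sum_congr rfl fun B hB => ?_
  have hB := mem_powerset.1 hB
  rw [bw, Pe.wt, prod_ite, filter_mem_eq_inter, inter_eq_right.2 hB, sdiff_eq_filter]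

theorem av_add (D : Γ → ℝ) (X : Finset Γ) (f f' : Finset Γ → ℝ) :
    Pe.av D X (fun B => f B + f' B) = Pe.av D X f + Pe.av D X f' := by
  simp only [Pe.av, mul_add, sum_add_distrib]

theorem av_mul (D : Γ → ℝ) (X : Finset Γ) (a : ℝ) (f : Finset Γ → ℝ) :
    Pe.av D X (fun B => a * f B) = a * Pe.av D X f := by
  simp only [Pe.av, mul_sum]; exact sum_congr rfl fun _ _ => by ring

theorem av_congr_D {D D' : Γ → ℝ} {X : Finset Γ} (h : ∀ g ∈ X, D g = D' g) (f : Finset Γ → ℝ) :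
    Pe.av D X f = Pe.av D' X f :=
  sum_congr rfl fun B _ => by rw [Pe.wt, Pe.wt, prod_congr rfl fun g hg => by rw [h g hg]]

/-- thinning twice. -/
theorem av_av (D μ : Γ → ℝ) (X : Finset Γ) (f : Finset Γ → ℝ) :
    Pe.av D X (fun C => Pe.av μ C f) = Pe.av (fun g => D g * μ g) X f := by
  induction X using Finset.induction_on generalizing f with
  | empty => simp only [Pe.av_empty]
  | insert g X hg ih =>
    rw [Pe.av_insert hg, Pe.av_insert hg, ih, Pe.av_congr (ψ' := fun B =>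
      μ g * Pe.av μ B (fun B' => f (insert g B')) + (1 - μ g) * Pe.av μ B f)
      fun B hB => Pe.av_insert (fun h => hg (hB h)) f, av_add, av_mul, av_mul, ih, ih]
    ring

theorem av_sdiff {D : Γ → ℝ} {A : Finset Γ} (h : ∀ g ∈ A, D g = 0) (X : Finset Γ)
    (f : Finset Γ → ℝ) : Pe.av D X f = Pe.av D (X \ A) f := by
  induction X using Finset.induction_on generalizing f with
  | empty => simp
  | insert g X hg ih =>
    rw [Pe.av_insert hg]
    by_cases h1 : g ∈ A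
    · rw [h g h1, insert_sdiff_of_mem _ h1, ih f]; ring
    · rw [insert_sdiff_of_notMem _ h1, Pe.av_insert fun h2 => hg (mem_sdiff.1 h2).1, ih, ih f]

theorem pl_av {D : Γ → ℝ} {X : Finset Γ} (hD : ∀ g ∈ X, 0 ≤ D g ∧ D g ≤ 1) :
    PL (Pe.av D X) fun B => B ⊆ X ∧ ∀ g ∈ B, D g ≠ 0 where
  mono f f' h := sum_le_sum fun B hB => by
    have hB := mem_powerset.1 hB
    by_cases h0 : Pe.wt D X B = 0
    · simp [h0]
    · refine mul_le_mul_of_nonneg_left (h B ⟨hB, fun g hg => ?_⟩) (Pe.wt_nn hD B)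
      simpa [hg] using prod_ne_zero_iff.1 h0 g (hB hg)
  add := av_add D X
  mul := av_mul D X

variable {Ξ : Type} [Fintype Ξ] {P : Ξ → ℝ} {L : Ξ → Finset Γ} {D : Γ → ℝ}

theorem mkE_sum (x : Finset Γ) (c : Γ → ℝ) :
    mkE P L D x (fun B => ∑ g ∈ B, c g) = ∑ g, c g * D g * up (qP P L) x g := by
  simp only [mkE, sum_bw, Pe.av_sum, up, sh, qP]
  have : ∀ g, c g * D g * (if g ∈ x then 0 else
      (∑ ξ, P ξ * if x ∪ {g} ⊆ L ξ then 1 else 0) / ∑ ξ, P ξ * if x ⊆ L ξ then 1 else 0) =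
      (∑ ξ, P ξ * if x ⊆ L ξ ∧ g ∈ L ξ \ x then c g * D g else 0) /
        ∑ ξ, P ξ * if x ⊆ L ξ then 1 else 0 := fun g => by
    split_ifs with h
    · simp [h]
    · rw [← mul_div_assoc, mul_sum]
      congr 1
      refine sum_congr rfl fun ξ _ => ?_
      simp only [union_subset_iff, singleton_subset_iff, mem_sdiff, h, not_false_iff, and_true]
      split_ifs <;> ring
  simp only [this]
  rw [← sum_div, sum_comm]
  congr 1
  refine sum_congr rfl fun ξ _ => ?_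
  rw [← mul_sum]
  congr 1
  split_ifs with h
  · simp only [h, true_and]
    rw [← sum_filter, filter_mem_eq_inter, univ_inter]
  · simp [h]

/-- **first moments of the marked up loops.** -/
theorem kB_sum {A : Finset Γ} (hA : qP P L A ≠ 0) (c : Γ → ℝ) :
    kB P L u D A (fun B => ∑ g ∈ B, c g) =
      ∑ g, c g * off (· ∈ A) D g * P1 (sh (qP P L) A) (off (· ∈ A) u) g := by
  simp only [kB, mkE_sum, P1, ← ex_mul]
  rw [show ∀ G : Γ → Finset Γ → ℝ, ∑ g, ex (nu (sh (qP P L) A) (off (· ∈ A) u)) (G g) =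
    ex (nu (sh (qP P L) A) (off (· ∈ A) u)) fun w => ∑ g, G g w from
    fun G => by simp only [ex, mul_sum]; exact sum_comm]
  refine congrArg _ (funext fun w => sum_congr rfl fun g _ => ?_)
  simp only [up, off, sh_sh hA, mem_union]
  by_cases h1 : g ∈ A <;> by_cases h2 : g ∈ w <;> simp [h1, h2]

end abs

section loop
variable {Λ : Type} [Fintype Λ] [DecidableEq Λ] {T : ℕ} [NeZero T] (ex ey : Fin T → Λ)

/-- coins, purple loops `C`, marked loops `B ⊆ C`. -/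
noncomputable def J (p : Fin T → ℝ) (b : Fin T × Λ → ℝ) (μ : Lp T Λ → ℝ)
    (F : (Fin T → Bool) × Finset (Lp T Λ) × Finset (Lp T Λ) → ℝ) : ℝ :=
  ∑ ξ, Pw p ξ * Pe.av (ub b) (L ex ey ξ) fun C => Pe.av μ C fun B => F (ξ, C, B)

variable {ex ey} {p : Fin T → ℝ} {b : Fin T × Λ → ℝ} {μ u D : Lp T Λ → ℝ} {A x : Finset (Lp T Λ)}
  {g : Lp T Λ}

theorem qP_eq (p : Fin T → ℝ) : qP (Pw p) (L ex ey) = qq ex ey p := rfl

theorem pr_Pw (hp : ∀ s, 0 ≤ p s ∧ p s ≤ 1) : Pr (Pw p) := ⟨Pw_nonneg hp, sum_Pw p⟩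

theorem pl_J (hp : ∀ s, 0 ≤ p s ∧ p s ≤ 1) (hb : ∀ v, 0 ≤ b v ∧ b v ≤ 1)
    (hμ : ∀ g, 0 ≤ μ g ∧ μ g ≤ 1) : PL (J ex ey p b μ) fun ω => Pw p ω.1 ≠ 0 ∧
      ω.2.1 ⊆ L ex ey ω.1 ∧ (∀ g ∈ ω.2.1, ub b g ≠ 0) ∧ ω.2.2 ⊆ ω.2.1 ∧ ∀ g ∈ ω.2.2, μ g ≠ 0 where
  mono f f' h := sum_le_sum fun ξ _ => by
    by_cases h0 : Pw p ξ = 0
    · simp [h0]
    refine mul_le_mul_of_nonneg_left ?_ (Pw_nonneg hp ξ)
    exact (pl_av fun g _ => ⟨ub_nn (fun v => (hb v).1) g, ub_le_one hb g⟩).mono _ _ fun C hC =>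
      (pl_av fun g _ => hμ g).mono _ _ fun B hB => h _ ⟨h0, hC.1, hC.2, hB.1, hB.2⟩
  add f f' := by simp only [J, av_add, mul_add, sum_add_distrib]
  mul a f := by
    simp only [J, av_mul, mul_sum]; exact sum_congr rfl fun _ _ => by ring

theorem J_coin (φ : (Fin T → Bool) → ℝ) : J ex ey p b μ (fun ω => φ ω.1) = Op.ex (Pw p) φ := by
  simp only [J, Pe.av_const, Op.ex]

theorem J_purple (F : (Fin T → Bool) → Finset (Lp T Λ) → ℝ) :
    J ex ey p b μ (fun ω => F ω.1 ω.2.1) = ∑ ξ, Pw p ξ * Pe.av (ub b) (L ex ey ξ) (F ξ) := by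
  simp only [J, Pe.av_const]

theorem J_mark (F : (Fin T → Bool) → Finset (Lp T Λ) → ℝ) :
    J ex ey p b μ (fun ω => F ω.1 ω.2.2) =
      ∑ ξ, Pw p ξ * Pe.av (fun g => ub b g * μ g) (L ex ey ξ) (F ξ) := by
  simp only [J, ← av_av]

theorem ub_kill_of {ξ : Fin T → Bool} (hx : x ⊆ L ex ey ξ) (hg : g ∈ L ex ey ξ) :
    ub (kill b (pts x)) g = if g ∈ x then 0 else ub b g := by
  rw [ub_kill, off]
  refine if_congr ⟨fun ⟨v, h1, h2⟩ => ?_, fun h => ?_⟩ rfl rfl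
  · obtain ⟨g', h3, h4⟩ := mem_pts.1 h2
    exact L_eq hg (hx h3) h1 h4 ▸ h3
  · obtain ⟨v, hv⟩ := L_nonempty hg
    exact ⟨v, hv, mem_pts.2 ⟨g, h, hv⟩⟩

/-- **the marked up loops given `x` are the marked purple loops of the child.** -/
theorem mkE_eq_J (hx : qq ex ey p x ≠ 0) (hD : ∀ g, D g = ub b g * μ g) (f : Finset (Lp T Λ) → ℝ) :
    mkE (Pw p) (L ex ey) D x f = J ex ey (pin ex ey p x) (kill b (pts x)) μ fun ω => f ω.2.2 := by
  rw [J_mark fun _ => f, mkE, qP_eq, sum_div]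
  refine sum_congr rfl fun ξ _ => ?_
  rw [show Pw (pin ex ey p x) ξ = (Pw p ξ * if x ⊆ L ex ey ξ then 1 else 0) / qq ex ey p x by
    rw [Pw_cond hx]; field_simp]
  split_ifs with h
  · rw [sum_bw, av_sdiff (D := fun g => ub (kill b (pts x)) g * μ g) (A := x)
      (fun g hg => by rw [ub_kill_of h (h hg), if_pos hg, zero_mul]),
      av_congr_D (D := fun g => ub (kill b (pts x)) g * μ g) (D' := D) fun g hg => by
        rw [ub_kill_of h (mem_sdiff.1 hg).1, if_neg (mem_sdiff.1 hg).2, hD]]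
    ring
  · simp

/-- the medium given `A` in loop form. -/
theorem med_eq (hp : ∀ s, 0 ≤ p s ∧ p s ≤ 1) (hA : qq ex ey p A ≠ 0) :
    med (qq ex ey p) (ub b) A = nu (qq ex ey (pin ex ey p A)) (ub (kill b (pts A))) := by
  rw [med, sh_qq hA, ub_kill]
  refine nu_congr (cpt_qq (pin_mem hp A)) fun g hg => ?_
  refine if_congr ⟨fun h => ?_, fun ⟨v, h1, h2⟩ => ?_⟩ rfl rfl
  · obtain ⟨v, hv⟩ := qq_nonempty hA h
    exact ⟨v, hv, mem_pts.2 ⟨g, h, hv⟩⟩
  · exact (mem_or_disjoint hA hg).resolve_right fun h => disjoint_left.1 h h1 h2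

theorem qq_union (hA : qq ex ey p A ≠ 0) (h : qq ex ey (pin ex ey p A) x ≠ 0) :
    qq ex ey p (A ∪ x) ≠ 0 := by
  rw [← sh_qq hA, sh] at h
  exact fun h0 => h (by rw [h0, zero_div])

/-- **two stages**: off a set `Bad` of media the marked loops are controlled in the child. -/
theorem kB_le (hp : ∀ s, 0 ≤ p s ∧ p s ≤ 1) (hb : ∀ v, 0 ≤ b v) {bY : Fin T × Λ → ℝ}
    (hY : ∀ v, 0 ≤ bY v ∧ bY v ≤ 1) (hμ : ∀ g, 0 ≤ μ g ∧ μ g ≤ 1) (hD : ∀ g, D g = ub bY g * μ g)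
    (hA : qq ex ey p A ≠ 0) {f : Finset (Lp T Λ) → ℝ} {c e : ℝ} (hf : ∀ B, f B ≤ c)
    (he : 0 ≤ e) (Bad : Finset (Lp T Λ) → Prop) [DecidablePred Bad]
    (h : ∀ w, nu (qq ex ey (pin ex ey p A)) (ub (kill b (pts A))) w ≠ 0 → ¬ Bad w →
      J ex ey (pin ex ey p (A ∪ w)) (kill bY (pts (A ∪ w))) μ (fun ω => f ω.2.2) ≤ e) :
    kB (Pw p) (L ex ey) (ub b) D A f ≤
      c * Op.ex (nu (qq ex ey (pin ex ey p A)) (ub (kill b (pts A)))) (Op.ind Bad) + e := by
  have hk : ∀ v, 0 ≤ kill b (pts A) v := fun v => by unfold kill; split_ifs; exacts [le_rfl, hb v]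
  have hν := pr_nu (cpt_qq (ex := ex) (ey := ey) (pin_mem (ex := ex) (ey := ey) hp A)) (ub_nn hk)
  rw [kB, qP_eq, med_eq hp hA, ← ex_mul, ← hν.ex_const e, ← ex_add]
  refine (pl_ex hν.nn).mono _ _ fun w hw => ?_
  rw [mkE_eq_J (qq_union hA (nu_supp hw).1) hD]
  by_cases hb : Bad w
  · have hY' : ∀ v, 0 ≤ kill bY (pts (A ∪ w)) v ∧ kill bY (pts (A ∪ w)) v ≤ 1 := fun v => by
      unfold kill; split_ifs; exacts [⟨le_rfl, zero_le_one⟩, hY v]
    have := (pl_J (ex := ex) (ey := ey) (pin_mem (ex := ex) (ey := ey) hp (A ∪ w)) hY' hμ).mono (fun ω => f ω.2.2)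
      (fun _ => c) fun ω _ => hf _
    rw [J_coin fun _ => c, (pr_Pw (pin_mem hp (A ∪ w))).ex_const] at this
    rw [ind_pos hb]; linarith
  · have := h w hw hb
    rw [Op.ind, if_neg hb]; linarith

theorem Up_eq {w : Finset (Lp T Λ)} (hw : qq ex ey p w ≠ 0) (g : Lp T Λ) :
    TK.Up ex ey p w g = up (qq ex ey p) w g := by
  rw [TK.Up, up, sh_qq hw]

/-- **rarity given `g` is rarity in the child.** -/
theorem rare_of_child (hp : ∀ s, 0 ≤ p s ∧ p s ≤ 1) (hu : ∀ g, 0 ≤ u g)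
    {E : Finset (Lp T Λ) → Prop} {ε : ℝ}
    (h : qq ex ey p {g} ≠ 0 → Op.ex (med (qq ex ey p) u {g}) (fun w => TK.i1 (E w)) ≤ ε) :
    TK.Rare ex ey p u g E ε := by
  have hq := cpt_qq (ex := ex) (ey := ey) hp
  unfold TK.Rare
  rw [ex_congr (g := fun w => TK.i1 (E w) * up (qq ex ey p) w g) fun w hw => by
      rw [Up_eq (nu_supp hw).1],
    ex_congr (g := fun w => up (qq ex ey p) w g) fun w hw => Up_eq (nu_supp hw).1 g]
  by_cases hg : qq ex ey p {g} = 0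
  · simp [up_zero hq hg, Op.ex]
  · rw [ex_up hq hu hg, mul_comm ε]
    exact mul_le_mul_of_nonneg_left (h hg) (P1_nn hq hu g)

end loop

end Crest.Agent.N337.Ld
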