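import Crest.Agent.N337.Ld.Us
import Crest.Agent.N337.Gl.Ht
import Crest.Agent.N337.Rg.Vis
import Crest.Agent.N337.Par.G1s
import Crest.Agent.N337.Par.Sm

/-!
# Row 337 (helper77): the numbers of `GC`, `UL`, `Sm` on the tiers
-/

set_option autoImplicit false
set_option linter.unusedSectionVars false

namespace Crest.Agent.N337.Ld

open Finset Crest.Agent.N337.Free Crest.Agent.N337.I Crest.Agent.N337.Rg Crest.Agent.N337.Par

variable {L n T u Dw mt kt l : ℕ} [NeZero L] [NeZero T]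

section gain
variable {α κ : Type} [SemilatticeSup α] [Preorder κ] {S : Sys (Tor 3 L) α κ} {G : Tr.Eg}
  {P : G1.Scales} {i : ℕ}

/-- the cost of the tube from the level `l` on. -/
theorem tau_sm (h : Bg n u) (H : GH u i P) (hi : i ≤ 15) (hQ : Tb.QQ S G ≤ Y u 1) (hl : l < mt) :
    Par.Sm u (48 * l + 15) 3 (Tb.tau S G P (kT u mt kt) (kT' u) l G.mt) := by
  have hu := h.hu
  have key : ∀ {k a r : ℕ} {c : ℝ}, Rb u (k + 1) 75 c → Y u a ≤ r → k + 1 < a →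
      Par.Sm u k 0 (√(c / (2 * (r : ℝ) + 1))) := fun {k a r c} h1 h2 h3 =>
    (Par.Sm.div h1 (k' := a) (by
      have : (Y u a : ℝ) ≤ r := by exact_mod_cast h2
      linarith [Yr_pos u a]) h3).sqrt (by norm_num)
  have a1 : Par.Sm u (48 * l + 15) 0 (Tb.cw P (2 ^ kT u mt kt l) (l + 1)) :=
    key (((H.K_le h l).lift (by omega)).mono (by norm_num)) (two_kT hl).ge (by omega)
  have a2 : Par.Sm u (48 * l + 15) 0 (∑ j ∈ Ico l G.mt, Tb.cw P (2 ^ kT' u j) (j + 2)) := by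
    refine .of_le (sum_nonneg fun j _ => Tb.cw_nn _ _) (k' := 48 * l + 25) (le_trans
      (sum_le_sum fun j _ => ?_) ((sum_s hu (t := fun j => 48 * j + 26) (fun j => by omega) l
        G.mt).trans (by sm! (48 * l + 25)))) (by omega)
    exact (key (k := 48 * j + 26) ((H.K h j).lift (by omega)) (two_kT' u j).ge (by omega)).le1
      (by norm_num) le_rfl
  unfold Tb.tau
  exact Par.Sm.mono (by s_bd) (by norm_num)

/-- the Green bound at distance `q ≥ x l (a + 1) / 2`. -/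
theorem gain (h : Bg n u) (H : GH u i P) (hi : i ≤ 15) (hQ : Tb.QQ S G ≤ Y u 1) (hl : l < mt)
    {a q : ℕ} {c e : ℝ} (hc : Rb u 0 1 c) (ha : a ≤ 4) (h1 : x u l (a + 1) ≤ 2 * q)
    (h2 : q ≤ x u l 6) (e0 : 0 ≤ e) (he : e ≤ s u (48 * l + 16)) :
    c * (0 + Gl.gF S G P (kT u mt kt) (kT' u) (Y u 0) l q + e) ≤ sx u l a ^ 16 := by
  have hu := h.hu
  have b1 := tau_sm (kt := kt) h H hi hQ hl
  have b2 := b1.rb (k' := 0) (by norm_num)
  have b3 : Par.Sm u (48 * l + 11 + a) 3 (Tb.tau S G P (kT u mt kt) (kT' u) l G.mt) := by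
    rcases ha.eq_or_lt with rfl | k
    · exact b1
    · exact (b1.down (by norm_num) (by omega)).mono (by norm_num)
  have b4 := H.K_le h l
  have b5 := H.η_le h l
  have b6 := log_pb (k := 48 * l + 1) hu (by omega) h2 (by omega)
  have b7 : Par.Sm u (48 * l + 11 + a) 0 e := .of_le e0 he (by omega)
  have b6' : Rb u (48 * l + 1) 2 (Nat.log 2 q : ℝ) := .cast b6
  refine (mul_le_mul_of_nonneg_left (add_le_add (add_le_add le_rfl (Gl.gF_le _ _ _)) le_rfl)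
    hc.1).trans ?_
  rw [← mul_div_mul_left _ _ (two_ne_zero (α := ℝ)), ← Nat.cast_two (R := ℝ), ← Nat.cast_mul 2 q,
    Nat.cast_two, sq (Tb.tau _ _ _ _ _ _ _)]
  sm! (48 * l + 11 + a)

end gain

/-- the prices of the covering bound. -/
noncomputable def tauX (u k r : ℕ) : ℝ := if r < x u k 12 then sx u k 2 else sx u k 4

lemma tauX_ge (u k r : ℕ) : sx u k 4 ≤ tauX u k r := by
  unfold tauX; split_ifs; exacts [s_anti (by omega), le_rfl]

/-- **`GcN`** on the tiers. -/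
theorem gcN (h : Bg n u) (z0 : Tor 3 L) {B K μ d nc R R' : ℕ} {th : ℕ → ℕ} {κ e : ℝ}
    (ok : Tr.Ok (sys n T (Par.num h Dw 12) z0) (eg u Dw mt))
    (tb : Tb.Nu (sys n T (Par.num h Dw 12) z0) (eg u Dw mt) (gs u (mt + 1)) (kT u mt kt) (kT' u) th)
    (hκ : Rb u 0 1 (G1.Cg κ)) (hμ : μ < mt) (hd : d ≤ 176) (hn : nc ≤ cN) (hR : R ≤ cS * x u μ 12)
    (hR' : nc ≠ 0 → cLam * max R (x u μ 12) ≤ R') (e0 : 0 ≤ e) (he : e ≤ s u (48 * μ)) :
    GcN (cxI L n T B Dw K μ (fun k => x u k 1) (fun k => x u k 3) (tauX u)) (Par.num h Dw 12) z0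
      (gs u (mt + 1)) (eg u Dw mt) (kT u mt kt) (kT' u) th κ 0 e d nc R R' := by
  have hu := h.hu
  have htm := h.tm
  have c1 : (ctm + 1) * ca ≤ cN := by unfold cN; omega
  have c2 : cN ≤ cN0 := by unfold cN0; omega
  have c3 : cN0 ≤ cqf := by unfold cqf; omega
  have hQ : Tb.QQ (sys n T (Par.num h Dw 12) z0) (eg u Dw mt) ≤ Y u 1 := by
    have := h.qf
    change 2 * cqf + 2 ≤ _
    tier! 0
  refine ⟨rfl, ok, tb, ⟨?_, ?_, fun l _ => ?_, ⟨hn.trans c2, hn⟩, hR⟩, ⟨fun l _ => ⟨c1.trans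
    (c2.trans c3), (rad_le h Dw 12 le_rfl (by exact Nat.le_add_right _ _)).trans (Sx_le h l), ?_⟩,
    hn.trans (c2.trans c3), hR.trans (Sx_le h μ)⟩, hμ, hR', fun l _ => Y_mono (by omega),
    fun l hl r r1 r2 => ?_⟩
  · change ck0 + 27 + d ≤ ctm
    unfold ctm; omega
  · change 125 * ((ctm + 1) * ca) ≤ cN0
    unfold cN0; omega
  · change 5 * ((3 * ctm + 1) * x u l 20) ≤ 2 * x u (l + 1) 0
    exact le_trans (by tier! (48 * l + 31)) (Nat.le_mul_of_pos_left _ two_pos)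
  · change 4 * x u l 15 + 3 * ctm * x u l 20 ≤ x u (l + 1) 0
    tier! (48 * l + 31)
  · change l < μ at hl
    change x u l 3 ≤ r at r1
    change r ≤ x u l 12 at r2
    have hη := (gh_gs u (mt + 1)).η_le h l
    have e1 : e ≤ s u (48 * l + 16) := he.trans (s_anti (by omega))
    have a1 : 4 * x u l 1 + 8 * (gs u (mt + 1)).η l + 2 ≤ x u l 3 := by tier! (48 * l + 12)
    have a2 : 2 * (x u l 5 + Y u 0) ≤ x u l 6 := by tier! (48 * l + 16)
    have a3 : x u l 5 + 2 * x u l 1 ≤ x u l 12 := by tier! (48 * l + 16)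
    have a4 : x u l 3 ≤ x u l 5 := Y_mono (by omega)
    change ∃ q, 1 ≤ q ∧ q + 2 * x u l 1 ≤ r ∧ 2 * (q + Y u 0) ≤ 2 ^ kT u mt kt l ∧
      4 * (gs u (mt + 1)).η l ≤ q ∧ G1.Cg κ * (0 + Gl.gF _ _ _ _ _ (Y u 0) l q + e) ≤ tauX u l r ^ 16
    rw [two_kT (hl.trans hμ), tauX]
    split_ifs with c
    · exact ⟨x u l 3 - 2 * x u l 1, by omega, by omega, by omega, by omega,
        gain (a := 2) h (gh_gs u _) (by omega) hQ (hl.trans hμ) hκ (by omega)
          (show x u l 3 ≤ _ by omega) (by omega) e0 e1⟩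
    · exact ⟨x u l 5, by omega, by omega, a2, by omega,
        gain (a := 4) h (gh_gs u _) (by omega) hQ (hl.trans hμ) hκ (by omega)
          (show x u l 5 ≤ _ by omega) (by omega) e0 e1⟩

/-- the numbers of `ul_grd`. -/
theorem sep_σ (h : Bg n u) (k : ℕ) : 2 * (Par.num h Dw 12).sep k ≤ (Par.num h Dw 12).σ k := by
  have hu := h.hu
  change 2 * x u k 12 ≤ x u k 13
  tier! (48 * k + 23)

/-- **`Sm`** on the tiers: `δ ≤ 1 / x (μ - 1) 14`, `1 / 2 ≤ Y ^ x (μ - 1) 13`. -/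
theorem sm_tier (h : Bg n u) (z0 : Tor 3 L) {B K μ : ℕ} {D : Gas.Lp T (Tor 3 L × Fin n) → ℝ}
    {Yp δ : ℝ} (h0 : 0 ≤ Yp) (h1 : Yp ≤ 1)
    (hD : μ ≠ 0 → (∀ g, D g ≤ δ * Gas.wd g) ∧ δ ≤ s u (48 * μ - 23) ∧
      1 / 2 ≤ Yp ^ Y u (48 * μ - 24)) :
    (cxI L n T B Dw K μ (fun k => x u k 1) (fun k => x u k 3) (tauX u)).Sm
      (sys n T (Par.num h Dw 12) z0) D Yp := by
  have hu := h.hu
  have hn := h.hn
  rcases Nat.eq_zero_or_pos μ with rfl | hμ
  · exact fun k hk => absurd hk (Nat.not_lt_zero k)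
  obtain ⟨a1, a2, a3⟩ := hD hμ.ne'
  have y0 := Yr_pos u (48 * μ - 23)
  refine sm_thin (Tf := 3 * Y u (48 * μ - 23)) rfl h0 h1 (fun g => ?_)
    (fun k r => (s_pos _ _).le.trans (tauX_ge u k r)) fun k hk => ⟨by positivity, ?_, fun r _ => ?_⟩
  · have b1 := mul_le_mul_of_nonneg_right ((a1 g).trans (mul_le_mul_of_nonneg_right a2
      (Nat.cast_nonneg _))) y0.le
    rw [mul_right_comm, s_mul] at b1
    linarith
  · change k < μ at hk
    refine a3.trans (pow_le_pow_of_le_one h0 h1 ?_)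
    change n * (2 * x u k 12 + 1) ^ 3 ≤ _
    tier! (48 * k + 23)
  · change k < μ at hk
    have b1 : 2 * (n * (2 * x u k 12 + 1) ^ 3) * x u k 4 ≤ Y u (48 * μ - 23) := by
      tier! (48 * k + 23)
    have b2 : (2 * (C9.Vn n (x u k 12)) * x u k 4 : ℝ) ≤ Y u (48 * μ - 23) := by exact_mod_cast b1
    have b3 := mul_le_mul_of_nonneg_left b2 (s_pos u (48 * k + 11 + 4)).le
    have b4 := mul_le_mul_of_nonneg_right (tauX_ge u k r) y0.le
    rw [mul_comm, mul_assoc, mul_comm _ (s _ _), s_mul] at b3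
    change 6 * (C9.Vn n (x u k 12) : ℝ) ≤ tauX u k r * _
    linarith

end Crest.Agent.N337.Ld
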