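import Crest.Agent.N337.Ld.Jnk

/-!
# Row 337 (helper77), C10: touch bounds, the reset step, frozen covers and the ladder
-/

set_option autoImplicit false
set_option linter.unusedSectionVars false

namespace Crest.Agent.N337.Ld

open Finset Crest.Agent.N337.Op Crest.Agent.N337.Gas Crest.Agent.N337.Pc Crest.Agent.N337.M
open Crest.Agent.N337.Rep (Pw)

variable {Λ : Type} [Fintype Λ] [DecidableEq Λ] {T : ℕ} [NeZero T] {X α κ : Type} [Fintype X]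
  [DecidableEq X] [SemilatticeSup α] [Preorder κ]
  {I : Ins T Λ X α κ} {G : Bs T Λ} {Sd : Finset (Fin T × Λ) → Prop}
  {d m t t1 N N' nc nD nD' nA nP r R0 R1 R2 R3 : ℕ} {y Y ε ε' π : ℝ} {μ D : Lp T Λ → ℝ}
  {s : Cfg T Λ} {Fc : Finset Λ → Finset X} {In Out Big : Cfg T Λ → Prop}

/-! ### anchors -/

/-- marked loops through a set of points, on the good media. -/
theorem EK_pts (h : Std G y Y μ) (h0 : 0 ≤ π) (f : F4 I G Sd Y μ (d + 1) m π) (hs : G.Val s)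
    (hS : Sd s.Z) (An : Finset (Fin T × Λ)) {t : ℕ} (ht : t ≤ I.S.tm)
    [DecidablePred fun w => Cls I.S (d + 1) (I.pa s.e ⊔ I.pa w) (I.kz s.Z) m t ∅ 0] :
    EK G y Y μ s (fun ω => if Cls I.S (d + 1) (I.pa s.e ⊔ I.pa ω.1) (I.kz s.Z) m t ∅ 0 then
      ∑ v ∈ An, ct (fun g => v ∈ g.2) ω.2.2 else 0) ≤ An.card * π := by
  refine ((pl_ex (h.pr s).nn).mono _ (fun _ => An.card * π) fun w hw => ?_).trans_eq
    ((h.pr s).ex_const _)
  have hJ := pl_JC h.ok h.Y0 h.Y1 h.μ (s.add w)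
  simp only [id]
  split_ifs with hc
  · rw [hJ.sum]
    exact (sum_le_card_nsmul _ _ _ fun v _ => f _ v ⟨hs.add (Bs.gs_supp hw).1, hS, le_rfl,
      cd_add.2 (hc.mono le_rfl le_rfl le_rfl ht Subset.rfl le_rfl)⟩).trans_eq (nsmul_eq_mul _ _)
  · rw [hJ.zero]; positivity

theorem Anc.un (a : Anc I G Sd d m r nA) (A : Finset X) : ∃ An : Finset (Fin T × Λ),
    An.card ≤ A.card * nA ∧ ∀ s B, Ad I G Sd d m 0 0 s ∅ → B ⊆ s.e → (∀ g ∈ B, ¬ Hit s.Z g) →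
      Nr I.S A r (I.pa B) → ∃ g ∈ B, ∃ v ∈ An, v ∈ g.2 := by
  choose An h1 h2 using a
  refine ⟨A.biUnion An, card_biUnion_le_card_mul _ _ _ fun x _ => h1 x,
    fun s B k1 k2 k3 ⟨f, hf, k4⟩ => ?_⟩
  obtain ⟨g, hg, v, hv, k5⟩ := h2 f s B k1 k2 k3 ⟨f, mem_singleton_self f, k4⟩
  exact ⟨g, hg, v, mem_biUnion.2 ⟨f, hf, hv⟩, k5⟩

/-- the final state is a configuration. -/
theorem fin_ad (hG : G.Ok) (hs : G.Val s) (hS : Sd s.Z) {ω : Tp T Λ}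
    (hω : G.gs (yw y) s ω.1 ≠ 0 ∧ SpC G μ (s.add ω.1) ω.2)
    (hc : Cls I.S d (I.pa s.e ⊔ I.pa ω.1 ⊔ I.pa ω.2.1) (I.kz s.Z) m I.S.tm ∅ 0) :
    Ad I G Sd d m 0 0 ((s.add ω.1).add ω.2.1) ∅ ∧ ω.2.2 ⊆ ((s.add ω.1).add ω.2.1).e ∧
      ∀ g ∈ ω.2.2, ¬ Hit s.Z g :=
  ⟨⟨hω.2.val (hs.add (Bs.gs_supp hω.1).1) hG, hS, le_rfl, cd_add.2 (by rwa [← I.pa_union] at hc)⟩,
    hω.2.2.2.1.trans subset_union_right, fun g hg ⟨v, h1, h2⟩ =>
      hω.2.2.1 g (hω.2.2.2.1 hg) ⟨v, h1, mem_union_left _ h2⟩⟩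

theorem one_le_ct {P : Lp T Λ → Prop} {B : Finset (Lp T Λ)} {g : Lp T Λ} (hg : g ∈ B) (h : P g) :
    1 ≤ ct P B := by
  classical
  refine le_trans ?_ (single_le_sum (f := fun g => if P g then (1 : ℝ) else 0)
    (fun _ _ => by split_ifs <;> norm_num) hg)
  rw [if_pos h]

theorem ct_le_sum {P : Lp T Λ → Prop} {B : Finset (Lp T Λ)} {An : Finset (Fin T × Λ)}
    (h : ∀ g ∈ B, P g → ∃ v ∈ An, v ∈ g.2) : ct P B ≤ ∑ v ∈ An, ct (fun g => v ∈ g.2) B := by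
  unfold ct
  rw [sum_comm]
  refine sum_le_sum fun g hg => ?_
  split_ifs with k
  · obtain ⟨v, h1, h2⟩ := h g hg k
    refine le_trans ?_ (single_le_sum (fun _ _ => by split_ifs <;> norm_num) h1)
    rw [if_pos h2]
  · exact sum_nonneg fun _ _ => by split_ifs <;> norm_num

/-- the data of a step without cover, with anchors. -/
structure Tch (I : Ins T Λ X α κ) (G : Bs T Λ) (Sd : Finset (Fin T × Λ) → Prop) (y Y : ℝ)
    (μ : Lp T Λ → ℝ) (d m t N nD : ℕ) (ε π : ℝ) : Prop where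
  std : Std G y Y μ
  f : F123 I G Sd y Y (EK G y Y μ) (fun _ => ∅) d m 0 0 0 0 0 ε
  π0 : 0 ≤ π
  f4 : F4 I G Sd Y μ (d + 1) m π
  alv : AlvH I N m nD
  rom : Rom I.S d t 0 0 0 0

theorem Tch.tri (h : Tch I G Sd y Y μ d m t N nD ε π) (hs : G.Val s)
    (k : Kl I Sd N 0 d m t (fun _ => ∅) 0 s) :
    Tri I.S (pb (EK G y Y μ s)) (fun ω => I.pa ω.1) (fun ω => I.pa ω.2.1) (fun ω => I.pa ω.2.2) d
      (I.pa s.e) (I.kz s.Z) (I.kz s.Z) m ∅ 0 0 0 ε :=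
  triK h.std h.f (k.ad hs (by have := h.rom.t; omega))

/-- **touch probability.** -/
theorem Tch.prob (h : Tch I G Sd y Y μ d m t N nD ε π) (a : Anc I G Sd (d + 1 + 1) m r nA)
    (hs : G.Val s) (k : Kl I Sd N 0 d m t (fun _ => ∅) 0 s) (A : Finset X) :
    pb (EK G y Y μ s) (fun ω => Cls I.S (d + 1 + 1) (I.pa s.e ⊔ I.pa ω.1 ⊔ I.pa ω.2.1) (I.kz s.Z) m
      I.S.tm ∅ 0 ∧ Nr I.S A r (I.pa ω.2.2)) ≤ nD * ε + A.card * nA * π := by
  classical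
  obtain ⟨Dm, h1, h2⟩ := h.alv s k.sup
  obtain ⟨An, a1, a2⟩ := a.un A
  have hP := pl_EK h.std s
  have b1 := (h.tri hs k).den1 h.rom h2 k.cl
  have b2 := EK_pts h.std h.π0 h.f4 hs k.sd An (t := t + 1) (by have := h.rom.t; omega)
  have b3 : (An.card : ℝ) * π ≤ A.card * nA * π :=
    mul_le_mul_of_nonneg_right (by exact_mod_cast a1) h.π0
  have b4 : (Dm.card : ℝ) * ε ≤ nD * ε := mul_le_mul_of_nonneg_right (by exact_mod_cast h1) h.f.e0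
  refine le_trans ?_ (add_le_add (b1.trans b4) (b2.trans b3))
  rw [pb_eq, pb_eq, ← hP.add]
  refine hP.mono _ _ fun ω hω => ?_
  have n1 : 0 ≤ ∑ v ∈ An, ct (fun g => v ∈ g.2) ω.2.2 := sum_nonneg fun _ _ => ct_nn _ _
  refine ind_le (add_nonneg (ind_nn _ _) (by split_ifs; exacts [n1, le_rfl])) fun k1 => ?_
  by_cases c : Cls I.S (d + 1) (I.pa s.e ⊔ I.pa ω.1) (I.kz s.Z) m (t + 1) ∅ 0
  · obtain ⟨e1, e2, e3⟩ := fin_ad h.std.ok hs k.sd hω k1.1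
    obtain ⟨g, hg, v, hv, e4⟩ := a2 _ _ e1 e2 e3 k1.2
    rw [if_pos c]
    exact le_add_of_nonneg_of_le (ind_nn _ _) ((one_le_ct hg e4).trans
      (single_le_sum (f := fun v => ct (fun g => v ∈ g.2) ω.2.2) (fun _ _ => ct_nn _ _) hv))
  · rw [ind_pos (S := fun ω : Tp T Λ => ¬ Cls I.S (d + 1) (I.pa s.e ⊔ I.pa ω.1) (I.kz s.Z) m
      (t + 1) ∅ 0) c, if_neg c, add_zero]

/-- **touch rate.** -/
theorem Tch.rate (h : Tch I G Sd y Y μ d m t N nD ε π) (a : Anc I G Sd (d + 1 + 1) m r nA)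
    (hs : G.Val s) (k : Kl I Sd N 0 d m t (fun _ => ∅) 0 s) (A : Finset X) :
    EK G y Y μ s (fun ω => ct (fun g => Nr I.S A r (I.pa {g})) ω.2.2) ≤
      N * (3 * nD * ε) + A.card * nA * π := by
  classical
  obtain ⟨Dm, h1, h2⟩ := h.alv s k.sup
  obtain ⟨An, a1, a2⟩ := a.un A
  have hP := pl_EK h.std s
  have ht := h.rom.t
  have b0 := (hP.sub.or _ _).trans (add_le_add ((h.tri hs k).den1 h.rom h2 k.cl)
    ((h.tri hs k).den2 h.rom h2 k.cl))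
  have b2 := EK_pts h.std h.π0 h.f4 hs k.sd An (t := t + 1) (by have := h.rom.t; omega)
  have b3 : (An.card : ℝ) * π ≤ A.card * nA * π :=
    mul_le_mul_of_nonneg_right (by exact_mod_cast a1) h.π0
  have b4 : (Dm.card : ℝ) * ε ≤ nD * ε := mul_le_mul_of_nonneg_right (by exact_mod_cast h1) h.f.e0
  refine le_trans ?_ (add_le_add (mul_le_mul_of_nonneg_left (b0.trans (by linarith))
    (Nat.cast_nonneg N)) (b2.trans b3))
  rw [pb_eq, ← hP.mul, ← hP.add]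
  refine hP.mono _ _ fun ω hω => ?_
  have n1 : 0 ≤ ∑ v ∈ An, ct (fun g => v ∈ g.2) ω.2.2 := sum_nonneg fun _ _ => ct_nn _ _
  unfold Op.ind
  split_ifs with c1 c2 c2
  · linarith [(ct_le (fun g => Nr I.S A r (I.pa {g})) ω.2.2).trans
      (Nat.cast_le.2 (hω.2.card_le k.sup))]
  · linarith [(ct_le (fun g => Nr I.S A r (I.pa {g})) ω.2.2).trans
      (Nat.cast_le.2 (hω.2.card_le k.sup))]
  · rw [mul_zero, zero_add]
    obtain ⟨e1, e2, e3⟩ := fin_ad h.std.ok hs k.sd hω ((not_not.1 (not_or.1 c1).2).mono le_rfl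
      le_rfl le_rfl (by omega) Subset.rfl le_rfl)
    refine ct_le_sum fun g hg k1 => ?_
    obtain ⟨g', hg', k2⟩ := a2 _ {g} e1 (singleton_subset_iff.2 (e2 hg))
      (fun g' hg' => mem_singleton.1 hg' ▸ e3 g hg) k1
    exact mem_singleton.1 hg' ▸ k2
  · exact absurd (not_not.1 (not_or.1 c1).1) c2

/-! ### frozen covers -/

/-- the living cells of scale `m` are children of `nP` cells. -/
def Few (I : Ins T Λ X α κ) (m t nP nD : ℕ) (Z : Finset (Fin T × Λ)) : Prop :=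
  ∃ P Dm : Finset X, P.card ≤ nP ∧ Dm.card ≤ nD ∧ Alv I.S (I.kz Z) m Dm ∧
    ∀ y ∈ Dm, ∃ p ∈ P, I.S.In m t p y

theorem Few.cov (h : Few I m t nP nD s.Z) (hc : Cd I d (m + 1) t ∅ 0 s)
    (h1 : nP * ((t + 1) * I.S.a) ≤ nc) (h2 : I.S.k0 + I.S.oc + d ≤ t1) (h3 : I.S.rad m t ≤ R0) :
    ∃ F : Finset X, F.card ≤ nc ∧ Cd I d m t1 F R0 s := by
  obtain ⟨P, Dm, a1, -, a3, a4⟩ := h
  exact ⟨_, (card_biUnion_le_card_mul _ _ _ fun p _ => (hc.all p).card_cov).trans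
    ((Nat.mul_le_mul_right _ a1).trans h1),
    (cls_child (fun p _ => hc.all p) a3 a4).mono le_rfl le_rfl le_rfl h2 Subset.rfl h3⟩

theorem Cd.box (h : Cd I d m t ∅ 0 s) (B F : Finset Λ) : Cd I d m t ∅ 0 (s.box B F) :=
  Cls.mono h le_rfl le_rfl (I.kz_mono subset_union_left) le_rfl Subset.rfl le_rfl

theorem sup_box {B : Finset Λ} (hB : B.card ≤ N) (s : Cfg T Λ) (F : Finset Λ) :
    (s.box B F).Sup N :=
  ⟨B, hB, fun v hv => by
    by_contra h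
    exact hv (mem_union_right _ (by simpa [A.cyl] using h))⟩

/-- **BoxIn.cov** -/
theorem box_cov (hπ : Function.Surjective I.π) {B : Finset Λ} (hB : B.card ≤ N)
    (hS : Sd (s.Z ∪ A.cyl Bᶜ)) (h : Few I m t nP nD (s.Z ∪ A.cyl Bᶜ)) (hc : Cd I d (m + 1) t ∅ 0 s)
    (h1 : nP * ((t + 1) * I.S.a) ≤ nc) (h2 : I.S.k0 + I.S.oc + d ≤ t1) (h3 : I.S.rad m t ≤ R0) :
    ∃ F : Finset Λ, F.card ≤ nc ∧ Kl I Sd N nc d m t1 (image I.π) R0 (s.box B F) := by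
  obtain ⟨F, a1, a2⟩ := Few.cov (s := s.box B ∅) h (hc.box B ∅) h1 h2 h3
  have e : (F.image (Function.surjInv hπ)).image I.π = F := by
    rw [image_image, Function.comp_surjInv, image_id]
  exact ⟨F.image (Function.surjInv hπ), card_image_le.trans a1, sup_box hB _ _, hS,
    e.symm ▸ a1, show Cd I d m t1 ((F.image (Function.surjInv hπ)).image I.π) R0 _ by
      rw [e]; exact a2⟩

/-- **StepR** -/
theorem stepR (hD : ∀ g, 0 ≤ D g ∧ D g ≤ yw Y g)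
    (h : Tch I G Sd y Y (mk D Y) d (m + 1) t N' nD' ε' π)
    (a : Anc I G Sd (d + 1 + 1) (m + 1) (R3 + I.S.loc m) nA)
    (f : F123 I G Sd y Y (EK G y Y (mk D Y)) (fun _ => ∅) d m nc R0 R1 R2 R3 ε)
    (n : Rom I.S d t1 R0 R1 R2 R3) (h1 : nP * ((t + 1) * I.S.a) ≤ nc)
    (h2 : I.S.k0 + I.S.oc + d ≤ t1) (h3 : I.S.rad m t ≤ R0) (hN : N ≤ N')
    (hI : ∀ s, In s → Kl I Sd N nc d m t1 Fc R0 s ∧ Few I m t nP nD s.Z)
    (hB : ∀ s, Big s → Cd I d (m + 1) t ∅ 0 s)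
    (hO : ∀ s x, In s → Cd I d m (t1 + 1) (Fc s.cv) R0 (s.add x) → Out (s.add x)) :
    G.StepR y D In Big Out (N * (3 * nD * ε) + (N' * (3 * nD' * ε') + nc * nA * π)) := by
  intro s x hs hi hb
  obtain ⟨k, hF⟩ := hI s hi
  obtain ⟨F, a1, a2⟩ := Few.cov (s := s.add x) hF (hB _ hb) h1 h2 h3
  obtain ⟨-, Dm, -, c1, c2, -⟩ := hF
  have hP := pl_EK h.std (s.add x)
  have b1 := rate_stp h.std f n hs k.sup k.sd a1 a2 c2
  have b2 := h.rate a hs ⟨k.sup.imp fun _ h => ⟨h.1.trans hN, h.2⟩, k.sd, le_rfl, hB _ hb⟩ F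
  have e0 := f.e0
  have e1 := h.π0
  rw [NmC_eq hD hs]
  refine (hP.mono _ _ fun ω _ => ct_or fun g _ hg => ?_).trans ((hP.add _ _).trans_le
    (add_le_add (b1.trans (by gcongr)) (b2.trans (by gcongr))))
  by_contra hn
  rw [not_or, not_not] at hn
  exact hg.2 (hO s _ hi (cd_add.2 (hn.1.far (Ins.pa_mono subset_union_left) (Cls.mono a2 le_rfl
    le_rfl le_rfl le_rfl Subset.rfl (n.r1.trans (n.r2.trans n.r3))) k.cl hn.2)))

/-! ### the ladder -/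

/-- numerics of the count ladder. -/
structure LdN (st k n0 : ℕ) (Nn : ℕ → ℝ) (ε π δ : ℝ) : Prop where
  st : 27 ≤ st
  π0 : 0 ≤ π
  δ0 : 0 ≤ δ
  n0 : (n0 : ℝ) ≤ Nn 0
  step : ∀ l < k, 0 < Nn (l + 1) ∧ Nn l * π ≤ δ * Nn (l + 1)
  last : Nn k * π ≤ δ
  sum : ε + (k + 1) * δ ≤ 1 / 10 ^ 9

section ladder
variable {X' : Type} [Fintype X'] {Gd : ℕ → Finset (Lp T Λ) → X' → Prop} {t0 st k n0 : ℕ}
  {Nn : ℕ → ℝ} {δ : ℝ}

/-- **LdIn**, abstract cells. -/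
theorem ldIn_of (h : Std G y Y (mk D Y)) (hD : ∀ g, 0 ≤ D g ∧ D g ≤ yw Y g) (hs : G.Val s)
    (hm : Mon Gd) (n : LdN st k n0 Nn ε π δ) {Dm : Finset X'} (h0 : Dm.card ≤ n0)
    (hd : ∀ B x, x ∉ Dm → Gd (t0 + st) B x)
    (hS : ∀ A, G.Val (s.add A) → (∀ x, Gd (t0 + (k + 1) * st + 26) A x) →
      pb (EK G y Y (mk D Y) (s.add A))
        (fun ω => ¬ ∀ t x, Gd t A x → Gd (t + 1) (A ∪ ω.2.2) x) ≤ ε)
    (hR : ∀ A x, G.Val (s.add A) → (∀ x, Gd (t0 + (k + 1) * st + 26) A x) →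
      pb (EK G y Y (mk D Y) (s.add A)) (fun ω => ¬ Gd (t0 + st) ω.2.2 x) ≤ π)
    (hO : ∀ A, Out (s.add A) → ∀ x, Gd (t0 + st) A x)
    (hB : ∀ A, (∀ x, Gd (t0 + (k + 1) * st + 27) A x) → Big (s.add A)) :
    G.LdIn y D Out Big s (Ldr Gd (fun _ => True) t0 st k Nn) := by
  classical
  have hP := fun A (hA : G.Val (s.add A)) => pl_kB (L := L G.ex G.ey) (pr_Pw (h.ok.pn s))
    (Cfg.u_nn (yw_nn h.y0) s) (Cfg.u_nn (fun g => (hD g).1) s) (fun g => by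
      rw [u_mk (G := G) hD]
      exact mul_le_one₀ (ub_le_one (bt_mem h.Y0 h.Y1 s) g) (h.μ g).1 (h.μ g).2)
    ((Pl.val_add hs).1 hA)
  have e : ∀ A, G.Val (s.add A) → ∀ (P : Finset (Lp T Λ) → Prop) [DecidablePred P],
      kB (Pw (G.pn s)) (L G.ex G.ey) (s.u (yw y)) (s.u D) A (Op.ind P) =
        pb (EK G y Y (mk D Y) (s.add A)) fun ω => P ω.2.2 := fun A hA P _ => by
    rw [kB_eq h.ok hD hs hA, pb_eq _ fun ω : Tp T Λ => P ω.2.2]; rfl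
  have hδ : 0 ≤ (k + 1) * δ := mul_nonneg (by positivity) n.δ0
  refine ⟨fun i A B hB h => h.le hm le_rfl hB, fun i A h => h.le hm (Nat.le_succ i) Subset.rfl,
    fun i hi A hA hv _ => ?_, fun A hA hv _ => ?_, fun A hA => ⟨by simp, fun l hl => ?_,
    fun x => hm _ _ _ _ x (by rw [add_mul]; omega) Subset.rfl (hO A hA x)⟩, fun A hA => hB A hA.2.2⟩
  · refine (h1_of (hP A hv) hA (Fail := fun B => ¬ ∀ t x, Gd t A x → Gd (t + 1) (A ∪ B) x)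
      (fun _ _ _ _ _ => trivial) fun _ _ h => not_not.1 h).trans ?_
    rw [e A hv]
    linarith [hS A hv (hA.le hm hi Subset.rfl).2.2, n.sum]
  · refine (h2_of (hP A hv) hm n.st hA (Fail := fun B => ¬ ∀ t x, Gd t A x → Gd (t + 1) (A ∪ B) x)
      (Tch := fun x B => ¬ Gd (t0 + st) B x) (Dm := Dm) (fun _ _ _ _ _ => trivial)
      (fun _ _ h => not_not.1 h) (fun _ _ _ _ h => not_not.1 h)
      (fun B _ x h => by by_contra hx; exact h (hd B x hx)) (fun x => ?_) n.π0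
      ((Nat.cast_le.2 h0).trans n.n0) n.step n.last).trans ?_
    · rw [e A hv]; exact hR A x hv hA.2.2
    · rw [e A hv]; linarith [hS A hv hA.2.2, n.sum]
  · rw [show Hi Gd (t0 + (l + 1) * st + 0) A = ∅ from eq_empty_of_forall_notMem fun x hx =>
      mem_Hi.1 hx (hm _ _ _ _ x (by rw [add_mul]; omega) Subset.rfl (hO A hA x))]
    simpa using (n.step l hl).1.le

/-- the rung of the cells when `A` is pinned. -/
def Rn (I : Ins T Λ X α κ) (m : ℕ) (s : Cfg T Λ) (t : ℕ) (A : Finset (Lp T Λ)) (x : X) : Prop :=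
  I.S.Good 0 (I.pa (s.e ∪ A)) (I.kz s.Z) m t x

theorem mon_Rn : Mon (Rn I m s) := fun _ _ _ _ _ ht hB h =>
  Rg.Sys.Good.mono h le_rfl (Ins.pa_mono (union_subset_union_right hB)) le_rfl ht

/-- **LdIn** on the rung, given the reset probability. -/
theorem ldIn_rung (hD : ∀ g, 0 ≤ D g ∧ D g ≤ yw Y g) {π0 : ℝ}
    (h : Tch I G Sd y Y (mk D Y) 0 m (t0 + (k + 1) * st + 26) N nD ε π0)
    (n : LdN st k nD Nn (3 * nD * ε) π δ) (hs : G.Val s) (hN : s.Sup N) (hS : Sd s.Z)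
    (hR : ∀ A x, G.Val (s.add A) → Kl I Sd N 0 0 m (t0 + (k + 1) * st + 26) (fun _ => ∅) 0 (s.add A) →
      pb (EK G y Y (mk D Y) (s.add A)) (fun ω => ¬ Rn I m s (t0 + st) ω.2.2 x) ≤ π)
    (hO : ∀ A, Out (s.add A) → I.Cl m (t0 + st) ∅ 0 (s.add A))
    (hB : ∀ A, I.Cl m (t0 + (k + 1) * st + 27) ∅ 0 (s.add A) → Big (s.add A)) :
    G.LdIn y D Out Big s (Ldr (Rn I m s) (fun _ => True) t0 st k Nn) := by
  obtain ⟨Dm, h1, h2⟩ := h.alv s hN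
  have e0 := h.f.e0
  refine ldIn_of h.std hD hs mon_Rn n h1 (fun B x hx => Rg.Sys.good_dead (h2 x hx))
    (fun A hA hg => ?_) (fun A x hA hg => hR A x hA ⟨hN, hS, le_rfl, fun x _ => hg x⟩)
    (fun A hA x => Cls.all (hO A hA) x) fun A hA => hB A fun x _ => hA x
  have k : Kl I Sd N 0 0 m (t0 + (k + 1) * st + 26) (fun _ => ∅) 0 (s.add A) :=
    ⟨hN, hS, le_rfl, fun x _ => hg x⟩
  refine ((h.tri hA k).sub.mono _ _ fun ω hω hc => hω fun t x hx => ?_).trans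
    (((h.tri hA k).step h.rom h2 k.cl le_rfl).trans (by gcongr))
  have := hc t x (fun f hf => absurd hf (notMem_empty f)) hx
  rwa [← I.pa_union, show (s.add A).e ∪ ω.2.2 = s.e ∪ (A ∪ ω.2.2) from union_assoc _ _ _] at this

/-- reset by locality. -/
theorem Tch.loc (h : Tch I G Sd y Y μ 0 m t N nD ε π) (a : Anc I G Sd 2 m (I.S.loc m) nA)
    (hc : I.Cl m t0 ∅ 0 s) {A : Finset (Lp T Λ)} (hA : G.Val (s.add A))
    (k : Kl I Sd N 0 0 m t (fun _ => ∅) 0 (s.add A)) (x : X) :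
    pb (EK G y Y μ (s.add A)) (fun ω => ¬ Rn I m s (t0 + st) ω.2.2 x) ≤ 3 * nD * ε + nA * π := by
  obtain ⟨Dm, h1, h2⟩ := h.alv _ k.sup
  have b0 : I.S.Good 0 (I.pa s.e) (I.kz (s.add A).Z) m t0 x := Cls.all hc x
  have b1 := (h.tri hA k).reset0 h.rom h2 k.cl (h.prob a hA k {x}) b0
  have b4 : (Dm.card : ℝ) * ε ≤ nD * ε := mul_le_mul_of_nonneg_right (by exact_mod_cast h1) h.f.e0
  rw [card_singleton, Nat.cast_one, one_mul] at b1
  refine le_trans ((h.tri hA k).sub.mono _ (fun ω => ¬ I.S.Good 0 (I.pa s.e ⊔ I.pa ω.2.2)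
    (I.kz (s.add A).Z) m t0 x) fun ω hω hg => hω ?_) (b1.trans ?_)
  · rw [Rn, I.pa_union]; exact hg.up (Nat.le_add_right _ _)
  · linarith only [b4]

/-- reset through the covers. -/
theorem Tch.cov (h : Tch I G Sd y Y μ 0 (m + 1) t N nD ε π)
    (a : Anc I G Sd 2 (m + 1) (I.S.rad m (t + 1) + I.S.loc m) nA) (e0 : 0 ≤ ε')
    (g1 : N1 I G Sd y 0 m ε') (g2 : N2 I G Sd Y 1 m ε') (g3 : N3 I G Sd (EK G y Y μ) 0 m ε')
    (hP : ∀ x, ∃ P : Finset X, P.card ≤ nP ∧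
      ∀ y, I.S.d x y ≤ I.S.ρ (m + 1) → ∃ p ∈ P, I.S.In m (t + 1) p y) (hst : nP ≤ st)
    (hc : I.Cl (m + 1) t0 ∅ 0 s) {A : Finset (Lp T Λ)} (hA : G.Val (s.add A))
    (k : Kl I Sd N 0 0 (m + 1) t (fun _ => ∅) 0 (s.add A)) (x : X) :
    pb (EK G y Y μ (s.add A)) (fun ω => ¬ Rn I (m + 1) s (t0 + st) ω.2.2 x) ≤
      4 * nD * ε + 3 * nP * ε' + nP * ((t + 1) * I.S.a) * nA * π := by
  obtain ⟨Dm, h1, h2⟩ := h.alv _ k.sup
  obtain ⟨P, p1, p2⟩ := hP x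
  have ad := k.ad hA (by have := h.rom.t; omega)
  have g : Trn I.S (pb (EK G y Y μ (s.add A))) (fun ω => I.pa ω.1) (fun ω => I.pa ω.2.1)
      (fun ω => I.pa ω.2.2) 0 (I.pa (s.add A).e) (I.kz (s.add A).Z) m 0 ε' := by
    refine ⟨fun p => ?_, fun p => ?_, fun p => g3 _ p ad⟩
    · exact (EG_fst fun w => Fn I.S 0 (I.pa (s.add A).e) (I.kz s.Z) (I.pa w) m p).trans_le
        (g1 _ p ad)
    · refine EG_child h.std (h.std.pr _) e0
        (Q := fun w => Cls I.S 1 (I.pa (s.add A).e ⊔ I.pa w) (I.kz s.Z) (m + 1) I.S.tm ∅ 0)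
        (P := fun w C => Fn I.S 1 (I.pa (s.add A).e ⊔ I.pa w) (I.kz s.Z) (I.pa C) m p)
        fun b hb hq => ?_
      rw [← I.pa_union]
      exact g2 ((s.add A).add b) p (ad.add (hA.add (Bs.gs_supp hb).1) hq)
  have b0 : I.S.Good 0 (I.pa s.e) (I.kz (s.add A).Z) (m + 1) t0 x := Cls.all hc x
  have b1 := (h.tri hA k).reset g h.rom h2 k.cl (Ins.pa_mono subset_union_left) p2
    (h.prob a hA k _) b0
  have b2 : (((P.biUnion (I.S.cov 0 (I.pa (s.add A).e) (I.kz (s.add A).Z) m)).card : ℕ) : ℝ) ≤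
      nP * ((t + 1) * I.S.a) := by
    exact_mod_cast (card_biUnion_le_card_mul _ _ _ fun p _ => (Cls.all k.cl p).card_cov).trans
      (Nat.mul_le_mul_right _ p1)
  have b3 := mul_le_mul_of_nonneg_right (mul_le_mul_of_nonneg_right b2 (Nat.cast_nonneg nA)) h.π0
  have b4 : (Dm.card : ℝ) * ε ≤ nD * ε := mul_le_mul_of_nonneg_right (by exact_mod_cast h1) h.f.e0
  have b5 : (P.card : ℝ) * ε' ≤ nP * ε' := mul_le_mul_of_nonneg_right (by exact_mod_cast p1) e0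
  refine le_trans ((h.tri hA k).sub.mono _ (fun ω => ¬ I.S.Good 0 (I.pa s.e ⊔ I.pa ω.2.2)
    (I.kz (s.add A).Z) (m + 1) (t0 + P.card) x) fun ω hω hg => hω ?_) (b1.trans ?_)
  · rw [Rn, I.pa_union]; exact hg.up (by omega)
  · linarith only [b3, b4, b5]

end ladder

end Crest.Agent.N337.Ld
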