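import Crest.Agent.N337.Rg.Cnt

/-!
# Row 337 (helper77), C10: classes of environments and union bounds over the cells

`Cls S d E Z m t F R`: the cells of scale `m` off the balls `(F, R)` have rung `≤ t`.
A random triple: medium `w`, purple loops `C`, new pins `B ≤ w ⊔ C`.
-/

set_option autoImplicit false
set_option linter.unusedSectionVars false

namespace Crest.Agent.N337.Ld

open Finset Crest.Agent.N337.Rg

variable {X α κ Ω : Type} [Fintype X] [SemilatticeSup α] [Preorder κ]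

/-- the class of the environment. -/
def Cls (S : Sys X α κ) (d : ℕ) (E : α) (Z : κ) (m t : ℕ) (F : Finset X) (R : ℕ) : Prop :=
  ∀ x, S.Off F R x → S.Good d E Z m t x

/-- the cells outside `Dm` are dead. -/
def Alv (S : Sys X α κ) (Z : κ) (m : ℕ) (Dm : Finset X) : Prop :=
  ∀ x, x ∉ Dm → ∀ z, S.d x z ≤ S.loc m → S.dead Z z

/-- every cell off the balls goes up by at most one rung. -/
def Stp (S : Sys X α κ) (d : ℕ) (E B : α) (Z Z' : κ) (m : ℕ) (F : Finset X) (R : ℕ) : Prop :=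
  ∀ t x, S.Off F R x → S.Good d E Z m t x → S.Good d (E ⊔ B) Z' m (t + 1) x

/-- the party `B` has a point within `r` of `A`. -/
def Nr (S : Sys X α κ) (A : Finset X) (r : ℕ) (B : α) : Prop :=
  ∃ f ∈ A, ∃ z, S.hit B z ∧ S.d f z ≤ r

/-- failing cells, failing children. -/
abbrev Fl (S : Sys X α κ) (d : ℕ) (E : α) (Z : κ) (w : α) (m : ℕ) (x : X) : Prop :=
  S.Fl (S.Jk d E Z) (S.W0 w E Z) m x
abbrev Fn (S : Sys X α κ) (d : ℕ) (E : α) (Z : κ) (w : α) (m : ℕ) (x : X) : Prop :=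
  S.Fn (S.Jk d E Z) (S.W0 w E Z) 0 m x
/-- covisit trees with cleanliness in the final state `E2`. -/
abbrev W2 (S : Sys X α κ) (d : ℕ) (E E2 B : α) (Z Z' : κ) (m : ℕ) (x : X) : Prop :=
  S.W2 d E Z (S.Vis B Z Z') (S.Iso (S.Jk (d + 1 + 1) E2 Z)) m x
abbrev Wn (S : Sys X α κ) (d : ℕ) (E E2 B : α) (Z : κ) (m : ℕ) (x : X) : Prop :=
  S.Wn d E Z (S.Vis B Z Z) (S.Iso (S.Jk (d + 1 + 1) E2 Z)) 0 m x

variable {S : Sys X α κ} {d d' m t t' R R' R0 R1 R2 R3 : ℕ} {E E' B : α} {Z Z' : κ}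
  {F F' Dm : Finset X} {μ : (Ω → Prop) → ℝ} {ε ε' π : ℝ} {x : X}

theorem Cls.mono (h : Cls S d E Z m t F R) (hd : d ≤ d') (hE : E' ≤ E) (hZ : Z ≤ Z') (ht : t ≤ t')
    (hF : F ⊆ F') (hR : R ≤ R') : Cls S d' E' Z' m t' F' R' :=
  fun x hx => (h x (hx.mono hF hR)).mono hd hE hZ ht

theorem Cls.all (h : Cls S d E Z m t ∅ R) (x : X) : S.Good d E Z m t x :=
  h x fun f hf => absurd hf (notMem_empty f)

theorem Stp.cls (h : Stp S d E B Z Z' m F R') (hc : Cls S d E Z m t F R) (hR : R ≤ R') :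
    Cls S d (E ⊔ B) Z' m (t + 1) F R' := fun x hx => h t x hx (hc x (hx.mono Subset.rfl hR))

theorem Stp.mono {B' : α} (h : Stp S d E B Z Z' m F R) (hB : B' ≤ B) : Stp S d E B' Z Z' m F R :=
  fun t x hx hg => (h t x hx hg).mono le_rfl (sup_le_sup_left hB E) le_rfl le_rfl

/-- the children off the covers. -/
theorem cls_child {P : Finset X} [DecidableEq X] (hG : ∀ p ∈ P, S.Good d E Z (m + 1) t p)
    (hA : Alv S Z m Dm) (hP : ∀ y ∈ Dm, ∃ p ∈ P, S.In m t p y) :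
    Cls S d E Z m (S.k0 + S.oc + d) (P.biUnion (S.cov d E Z m)) (S.rad m t) := fun y hy => by
  by_cases h : y ∈ Dm
  · obtain ⟨p, hp, h1⟩ := hP y h
    exact (hG p hp).child h1 (hy.mono (subset_biUnion_of_mem _ hp) le_rfl)
  · exact Sys.good_dead (hA y h)

/-- `B` stays away from the balls `(F', R')` of the larger environment `E'`. -/
theorem Stp.far (h : Stp S d E' B Z Z m F' R') (hE : E ≤ E') (hc' : Cls S d E' Z m t F' R')
    (hc : Cls S d E Z m t F R) (hB : ¬ Nr S F' (R' + S.loc m) B) :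
    Cls S d (E ⊔ B) Z m (t + 1) F R := fun x hx => by
  by_cases hv : ∃ z, S.hit B z ∧ S.d x z ≤ S.loc m
  · obtain ⟨z, h1, h2⟩ := hv
    have ho : S.Off F' R' x := fun f hf => lt_of_not_ge fun h3 =>
      hB ⟨f, hf, z, h1, (S.d_tri f x z).trans (Nat.add_le_add h3 h2)⟩
    exact (h t x ho (hc' x ho)).mono le_rfl (sup_le_sup_right hE B) le_rfl le_rfl
  · exact ((hc x hx).loc fun z hz => lt_of_not_ge fun h2 => hv ⟨z, hz, h2⟩).up (Nat.le_succ t)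

theorem Sub.un (hμ : Sub μ) {ι : Type} (s : Finset ι) {A : Ω → Prop} (A' : ι → Ω → Prop)
    (h : ∀ ω, A ω → ∃ i ∈ s, A' i ω) (he : ∀ i ∈ s, μ (A' i) ≤ ε) : μ A ≤ s.card * ε :=
  (hμ.union s A' h).trans ((sum_le_card_nsmul _ _ _ he).trans_eq (nsmul_eq_mul _ _))

theorem Sub.or' (hμ : Sub μ) {A A1 A2 : Ω → Prop} (h : ∀ ω, A ω → A1 ω ∨ A2 ω) :
    μ A ≤ μ A1 + μ A2 := (hμ.mono _ _ h).trans (hμ.or _ _)

/-- union over the living cells off the balls. -/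
theorem Sub.cells (hμ : Sub μ) (h0 : 0 ≤ ε) {A : Ω → Prop} (A' : X → Ω → Prop)
    (h : ∀ ω, A ω → ∃ x ∈ Dm, S.Off F R x ∧ A' x ω) (he : ∀ x, S.Off F R x → μ (A' x) ≤ ε) :
    μ A ≤ Dm.card * ε := by
  classical
  refine (Sub.un hμ (Dm.filter (S.Off F R)) A' (fun ω hω => ?_) fun x hx =>
    he x (mem_filter.1 hx).2).trans (mul_le_mul_of_nonneg_right (Nat.cast_le.2 (card_filter_le _ _)) h0)
  obtain ⟨x, h1, h2, h3⟩ := h ω hω
  exact ⟨x, mem_filter.2 ⟨h1, h2⟩, h3⟩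

/-- **dense step** in a random environment. -/
theorem den (hμ : Sub μ) (h0 : 0 ≤ ε) (hd : S.k0 + S.oc + d ≤ S.tm) (ht : t ≤ S.tm) (hR : R0 ≤ R1)
    (hA : Alv S Z m Dm) {E w : Ω → α}
    (f : ∀ x, S.Off F R1 x → μ (fun ω => Cls S d (E ω) Z m S.tm F R0 ∧ Fl S d (E ω) Z (w ω) m x) ≤ ε) :
    μ (fun ω => Cls S d (E ω) Z m t F R0 ∧ ¬ Cls S (d + 1) (E ω ⊔ w ω) Z m (t + 1) F R1) ≤
      Dm.card * ε := by
  refine Sub.cells hμ h0 _ (fun ω hω => ?_) f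
  by_contra hc
  refine hω.2 fun x hx => ?_
  by_cases h : x ∈ Dm
  · exact Sys.step_d hd (fun hf => hc ⟨x, h, hx, hω.1.mono le_rfl le_rfl le_rfl ht Subset.rfl le_rfl,
      hf⟩) (hω.1 x (hx.mono Subset.rfl hR)) ht
  · exact Sys.good_dead (hA x h)

/-- the three cell bounds of a random triple. -/
structure Tri (S : Sys X α κ) (μ : (Ω → Prop) → ℝ) (w C B : Ω → α) (d : ℕ) (E : α) (Z Z' : κ)
    (m : ℕ) (F : Finset X) (R1 R2 R3 : ℕ) (ε : ℝ) : Prop where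
  sub : Sub μ
  e0 : 0 ≤ ε
  le : μ (fun ω => ¬ B ω ≤ w ω ⊔ C ω) ≤ 0
  f1 : ∀ x, S.Off F R1 x → μ (fun ω => Fl S d E Z (w ω) m x) ≤ ε
  f2 : ∀ x, S.Off F R2 x → μ (fun ω => Cls S (d + 1) (E ⊔ w ω) Z m S.tm F R1 ∧
    Fl S (d + 1) (E ⊔ w ω) Z (C ω) m x) ≤ ε
  f3 : ∀ x, S.Off F R3 x → μ (fun ω => Cls S (d + 1 + 1) (E ⊔ w ω ⊔ C ω) Z m S.tm F R2 ∧
    W2 S d E (E ⊔ w ω ⊔ C ω) (B ω) Z Z' m x) ≤ ε

/-- numerics of a step. -/
structure Rom (S : Sys X α κ) (d t R0 R1 R2 R3 : ℕ) : Prop where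
  d : S.k0 + S.oc + d + 1 ≤ S.tm
  t : t + 2 ≤ S.tm
  r1 : R0 ≤ R1
  r2 : R1 ≤ R2
  r3 : R2 ≤ R3

variable {w C B : Ω → α}

theorem Tri.den1 (h : Tri S μ w C B d E Z Z' m F R1 R2 R3 ε) (n : Rom S d t R0 R1 R2 R3)
    (hA : Alv S Z m Dm) (hc : Cls S d E Z m t F R0) :
    μ (fun ω => ¬ Cls S (d + 1) (E ⊔ w ω) Z m (t + 1) F R1) ≤ Dm.card * ε :=
  (h.sub.mono _ _ fun _ hω => ⟨hc, hω⟩).trans (den (E := fun _ => E) h.sub h.e0
    (by have := n.d; omega) (by have := n.t; omega) n.r1 hA fun x hx =>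
      (h.sub.mono _ _ fun _ hω => hω.2).trans (h.f1 x hx))

theorem Tri.den2 (h : Tri S μ w C B d E Z Z' m F R1 R2 R3 ε) (n : Rom S d t R0 R1 R2 R3)
    (hA : Alv S Z m Dm) (hc : Cls S d E Z m t F R0) :
    μ (fun ω => ¬ Cls S (d + 1 + 1) (E ⊔ w ω ⊔ C ω) Z m (t + 1 + 1) F R2) ≤ 2 * Dm.card * ε := by
  have h1 := h.den1 n hA hc
  have h2 := den (E := fun ω => E ⊔ w ω) (t := t + 1) h.sub h.e0 n.d (by have := n.t; omega) n.r2
    hA h.f2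
  have := Sub.or' h.sub (A := fun ω => ¬ Cls S (d + 1 + 1) (E ⊔ w ω ⊔ C ω) Z m (t + 1 + 1) F R2)
    (A1 := fun ω => ¬ Cls S (d + 1) (E ⊔ w ω) Z m (t + 1) F R1)
    (A2 := fun ω => Cls S (d + 1) (E ⊔ w ω) Z m (t + 1) F R1 ∧
      ¬ Cls S (d + 1 + 1) (E ⊔ w ω ⊔ C ω) Z m (t + 1 + 1) F R2) fun ω hω => by tauto
  linarith

/-- **sparse step** for all cells at once. -/
theorem Tri.step (h : Tri S μ w C B d E Z Z' m F R1 R2 R3 ε) (n : Rom S d t R0 R1 R2 R3)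
    (hA : Alv S Z m Dm) (hc : Cls S d E Z m t F R0) (hZ : Z ≤ Z') :
    μ (fun ω => ¬ Stp S d E (B ω) Z Z' m F R3) ≤ 3 * Dm.card * ε := by
  have hd := n.d
  have ht := n.t
  set N1 : Ω → Prop := fun ω => ∃ x ∈ Dm, S.Off F R1 x ∧ Fl S d E Z (w ω) m x with hN1
  set N2 : Ω → Prop := fun ω => ∃ x ∈ Dm, S.Off F R2 x ∧ Cls S (d + 1) (E ⊔ w ω) Z m S.tm F R1 ∧
    Fl S (d + 1) (E ⊔ w ω) Z (C ω) m x with hN2
  set N3 : Ω → Prop := fun ω => ∃ x ∈ Dm, S.Off F R3 x ∧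
    Cls S (d + 1 + 1) (E ⊔ w ω ⊔ C ω) Z m S.tm F R2 ∧
    W2 S d E (E ⊔ w ω ⊔ C ω) (B ω) Z Z' m x with hN3
  have a1 : μ N1 ≤ Dm.card * ε := Sub.cells h.sub h.e0 _ (fun _ h => h) h.f1
  have a2 : μ N2 ≤ Dm.card * ε := Sub.cells h.sub h.e0 _ (fun _ h => h) h.f2
  have a3 : μ N3 ≤ Dm.card * ε := Sub.cells h.sub h.e0 _ (fun _ h => h) h.f3
  have key : ∀ ω, ¬ Stp S d E (B ω) Z Z' m F R3 →
      (¬ B ω ≤ w ω ⊔ C ω ∨ N1 ω) ∨ (N2 ω ∨ N3 ω) := fun ω hω => by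
    by_contra hn
    simp only [not_or, not_not] at hn
    obtain ⟨⟨hB, n1⟩, n2, n3⟩ := hn
    have c1 : Cls S (d + 1) (E ⊔ w ω) Z m (t + 1) F R1 := fun x hx => by
      by_cases h : x ∈ Dm
      · exact Sys.step_d (by omega) (fun hf => n1 ⟨x, h, hx, hf⟩)
          (hc x (hx.mono Subset.rfl n.r1)) (by omega)
      · exact Sys.good_dead (hA x h)
    have c1' := c1.mono le_rfl le_rfl le_rfl (show t + 1 ≤ S.tm by omega) Subset.rfl le_rfl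
    have c2 : Cls S (d + 1 + 1) (E ⊔ w ω ⊔ C ω) Z m S.tm F R2 := fun x hx => by
      by_cases h : x ∈ Dm
      · exact (Sys.step_d hd (fun hf => n2 ⟨x, h, hx, c1', hf⟩)
          (c1 x (hx.mono Subset.rfl n.r2)) (by omega)).up (by omega)
      · exact Sys.good_dead (hA x h)
    refine hω fun s x hx hg => ?_
    by_cases h : x ∈ Dm
    swap
    · exact (Sys.good_dead (hA x h)).mono le_rfl le_rfl hZ le_rfl
    have k : ∀ s ≤ S.tm, S.Good d E Z m s x → S.Good d (E ⊔ B ω) Z' m (s + 1) x := fun s hs hg =>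
      Sys.step_s (by omega) hZ (Sys.fails_two hd hB) (fun hf => hf.elim
        (fun hf => n1 ⟨x, h, hx.mono Subset.rfl (n.r2.trans n.r3), hf⟩)
        fun hf => n2 ⟨x, h, hx.mono Subset.rfl n.r3, c1', hf⟩) (fun hw => n3 ⟨x, h, hx, c2, hw⟩) hg hs
    by_cases hs : s ≤ S.tm
    · exact k s hs hg
    · exact (k t (by omega) (hc x (hx.mono Subset.rfl (n.r1.trans (n.r2.trans n.r3))))).up
        (by omega)
  have b1 := Sub.or' h.sub key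
  have b2 := h.sub.or (fun ω => ¬ B ω ≤ w ω ⊔ C ω) N1
  have b3 := h.sub.or N2 N3
  have := h.le
  linarith

/-- the cell bounds for the children of one cell `p` of scale `m + 1`. -/
structure Trn (S : Sys X α κ) (μ : (Ω → Prop) → ℝ) (w C B : Ω → α) (d : ℕ) (E : α) (Z : κ)
    (m R : ℕ) (ε : ℝ) : Prop where
  g1 : ∀ p, μ (fun ω => Fn S d E Z (w ω) m p) ≤ ε
  g2 : ∀ p, μ (fun ω => Cls S (d + 1) (E ⊔ w ω) Z (m + 1) S.tm ∅ R ∧
    Fn S (d + 1) (E ⊔ w ω) Z (C ω) m p) ≤ ε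
  g3 : ∀ p, μ (fun ω => Cls S (d + 1 + 1) (E ⊔ w ω ⊔ C ω) Z (m + 1) S.tm ∅ R ∧
    Wn S d E (E ⊔ w ω ⊔ C ω) (B ω) Z m p) ≤ ε

/-- **reset** of one cell. -/
theorem Tri.reset [DecidableEq X] (h : Tri S μ w C B d E' Z Z (m + 1) ∅ R R R ε)
    (g : Trn S μ w C B d E' Z m R ε') (n : Rom S d t' R R R R) (hA : Alv S Z (m + 1) Dm)
    (hc : Cls S d E' Z (m + 1) t' ∅ R) (hE : E ≤ E') {P : Finset X}
    (hP : ∀ y, S.d x y ≤ S.ρ (m + 1) → ∃ p ∈ P, S.In m (t' + 1) p y)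
    (hT : μ (fun ω => Cls S (d + 1 + 1) (E' ⊔ w ω ⊔ C ω) Z (m + 1) S.tm ∅ R ∧
      Nr S (P.biUnion (S.cov d E' Z m)) (S.rad m (t' + 1) + S.loc m) (B ω)) ≤ π)
    (hx : S.Good d E Z (m + 1) t x) :
    μ (fun ω => ¬ S.Good d (E ⊔ B ω) Z (m + 1) (t + P.card) x) ≤
      3 * Dm.card * ε + 3 * P.card * ε' + π := by
  have hd := n.d
  have ht := n.t
  have a1 := h.den1 n hA hc
  have a2 := h.den2 n hA hc
  have b1 := Sub.un h.sub P (A := fun ω => ∃ p ∈ P, _) _ (fun _ h => h) fun p _ => g.g1 p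
  have b2 := Sub.un h.sub P (A := fun ω => ∃ p ∈ P, _) _ (fun _ h => h) fun p _ => g.g2 p
  have b3 := Sub.un h.sub P (A := fun ω => ∃ p ∈ P, _) _ (fun _ h => h) fun p _ => g.g3 p
  refine le_trans (h.sub.mono _ _ fun ω hω => ?_) ((h.sub.or _ _).trans (add_le_add
    ((h.sub.or _ _).trans (add_le_add ((h.sub.or _ _).trans (add_le_add ((h.sub.or _ _).trans
      (add_le_add h.le a1)) a2)) ((h.sub.or _ _).trans (add_le_add ((h.sub.or _ _).trans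
      (add_le_add b1 b2)) b3)))) hT)) |>.trans (le_of_eq (by ring))
  by_contra hn
  simp only [not_or, not_not, not_exists, not_and] at hn
  obtain ⟨⟨⟨⟨hB, c1⟩, c2⟩, ⟨n1, n2⟩, n3⟩, n4⟩ := hn
  have c1' := c1.mono le_rfl le_rfl le_rfl (show t' + 1 ≤ S.tm by omega) Subset.rfl le_rfl
  have c2' := c2.mono le_rfl le_rfl le_rfl (show t' + 1 + 1 ≤ S.tm by omega) Subset.rfl le_rfl
  refine hω (Sys.reset (by omega) (Sys.fails_two hd hB) hE (by omega) hP (fun p _ => hc.all p)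
    (fun p hp hf => hf.elim (n1 p hp) (n2 p hp c1')) (fun p hp => n3 p hp c2')
    (fun p hp f hf z hz => lt_of_not_ge fun h3 => ?_) hx)
  exact n4 c2' ⟨f, mem_biUnion.2 ⟨p, hp, hf⟩, z, hz, h3⟩

/-- **reset** by locality. -/
theorem Tri.reset0 (h : Tri S μ w C B d E' Z Z m ∅ R R R ε) (n : Rom S d t' R R R R)
    (hA : Alv S Z m Dm) (hc : Cls S d E' Z m t' ∅ R)
    (hT : μ (fun ω => Cls S (d + 1 + 1) (E' ⊔ w ω ⊔ C ω) Z m S.tm ∅ R ∧
      Nr S {x} (S.loc m) (B ω)) ≤ π) (hx : S.Good d E Z m t x) :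
    μ (fun ω => ¬ S.Good d (E ⊔ B ω) Z m t x) ≤ 2 * Dm.card * ε + π := by
  have ht := n.t
  refine (Sub.or' h.sub fun ω hω => ?_).trans (add_le_add (h.den2 n hA hc) hT)
  by_contra hn
  simp only [not_or, not_not, not_and] at hn
  refine hω (hx.loc fun z hz => lt_of_not_ge fun h3 => hn.2 (hn.1.mono le_rfl le_rfl le_rfl
    (by omega) Subset.rfl le_rfl) ⟨x, mem_singleton_self x, z, hz, h3⟩)

end Crest.Agent.N337.Ld
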