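import Crest.Agent.N337.Ld.Child
import Crest.Agent.N337.Ld.Tri
import Crest.Agent.N337.M.Cls
import Crest.Agent.N337.M.Peel
import Crest.Agent.N337.M.TkD
import Crest.Agent.N337.Pc.Loop

/-!
# Row 337 (helper77), C10: the joint laws of (medium, purple loops, new pins) in a configuration
-/

set_option autoImplicit false
set_option linter.unusedSectionVars false

namespace Crest.Agent.N337.Ld

open Finset Crest.Agent.N337.Op Crest.Agent.N337.Gas Crest.Agent.N337.Pc Crest.Agent.N337.M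
open Crest.Agent.N337.Rg (Sub)
open Crest.Agent.N337.Rep (Pw Pw_nonneg sum_Pw)

open Classical in
/-- the probability of an event. -/
noncomputable def pb {Ω : Type} (E : (Ω → ℝ) → ℝ) (A : Ω → Prop) : ℝ := E (Op.ind A)

section pb
variable {Ω Ω' : Type} {E : (Ω → ℝ) → ℝ} {Sp A A' : Ω → Prop}

theorem pb_eq (E : (Ω → ℝ) → ℝ) (A : Ω → Prop) [DecidablePred A] : pb E A = E (Op.ind A) := by
  unfold pb; congr

theorem PL.pb_imp (h : PL E Sp) (hs : ∀ ω, Sp ω → A ω → A' ω) : pb E A ≤ pb E A' := by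
  classical
  rw [pb_eq, pb_eq]; exact h.imp hs

theorem PL.pb_null (h : PL E Sp) (hs : ∀ ω, Sp ω → ¬ A ω) : pb E A ≤ 0 := by
  classical
  rw [pb_eq, ← h.zero]
  exact h.mono _ _ fun ω hω => ind_le le_rfl fun h1 => absurd h1 (hs ω hω)

theorem PL.pb_nn (h : PL E Sp) (A : Ω → Prop) : 0 ≤ pb E A := by
  classical
  rw [pb_eq]; exact h.nn fun _ _ => ind_nn _ _

theorem PL.sub (h : PL E Sp) : Sub (pb E) where
  mono _ _ hs := h.pb_imp fun ω _ => hs ω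
  or A B := by
    classical
    rw [pb_eq, pb_eq, pb_eq]; exact h.or fun _ _ h => h
  bot := h.pb_null fun _ _ h => h

theorem PL.map (h : PL E Sp) (φ : Ω → Ω') :
    PL (fun F => E fun ω => F (φ ω)) fun ω' => ∃ ω, Sp ω ∧ φ ω = ω' :=
  ⟨fun _ _ hf => h.mono _ _ fun ω hω => hf _ ⟨ω, hω, rfl⟩, fun _ _ => h.add _ _,
    fun _ _ => h.mul _ _⟩

/-- a bounded function that vanishes off an event. -/
theorem PL.le_pb (h : PL E Sp) {f : Ω → ℝ} {c : ℝ} (h1 : ∀ ω, Sp ω → A ω → f ω ≤ c)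
    (h0 : ∀ ω, Sp ω → ¬ A ω → f ω ≤ 0) : E f ≤ c * pb E A := by
  classical
  rw [pb_eq, ← h.mul]
  refine h.mono _ _ fun ω hω => ?_
  unfold Op.ind; split_ifs with k
  · rw [mul_one]; exact h1 ω hω k
  · rw [mul_zero]; exact h0 ω hω k

end pb

variable {Λ : Type} [Fintype Λ] [DecidableEq Λ] {T : ℕ} [NeZero T]

/-- triples `(w, C, B)`. -/
abbrev Tp (T : ℕ) (Λ : Type) : Type := Finset (Lp T Λ) × Finset (Lp T Λ) × Finset (Lp T Λ)

/-- purple loops `C` (fugacity `Y`) and marked loops `B ⊆ C` in the configuration `s`. -/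
noncomputable def JC (G : Bs T Λ) (Y : ℝ) (μ : Lp T Λ → ℝ) (s : Cfg T Λ)
    (F : Finset (Lp T Λ) × Finset (Lp T Λ) → ℝ) : ℝ :=
  J G.ex G.ey (G.pn s) (G.mdl Y s).b μ fun ω => F ω.2

/-- purple loops only. -/
noncomputable def PC (G : Bs T Λ) (Y : ℝ) (s : Cfg T Λ) (f : Finset (Lp T Λ) → ℝ) : ℝ :=
  ∑ ξ, Pw (G.pn s) ξ * Pe.av (ub (G.mdl Y s).b) (L G.ex G.ey ξ) f

/-- first `a ~ ν` that determines the down loops `w0 a`, then purple and marked loops. -/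
noncomputable def EG (G : Bs T Λ) (Y : ℝ) (μ : Lp T Λ → ℝ) (s : Cfg T Λ) {A : Type} [Fintype A]
    (ν : A → ℝ) (w0 : A → Finset (Lp T Λ)) (B0 : A → Finset (Lp T Λ) → Finset (Lp T Λ))
    (F : Tp T Λ → ℝ) : ℝ :=
  Op.ex ν fun a => JC G Y μ (s.add (w0 a)) fun c => F (w0 a, c.1, B0 a c.2)

/-- medium resampled, `B` = marked up loops. -/
noncomputable def EK (G : Bs T Λ) (y' Y : ℝ) (μ : Lp T Λ → ℝ) (s : Cfg T Λ) : (Tp T Λ → ℝ) → ℝ :=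
  EG G Y μ s (G.gs (yw y') s) id fun _ B => B
/-- `B` = top colour of the down loops. -/
noncomputable def EH (G : Bs T Λ) (W : Lp T Λ → ℝ) (y' Y : ℝ) (s : Cfg T Λ) : (Tp T Λ → ℝ) → ℝ :=
  EG G Y (fun _ => 0) s (Pl.m2 G W y' s) fg fun X _ => fg (hi X)
/-- `B` = the down loops that meet `U`. -/
noncomputable def EU (G : Bs T Λ) (y Y : ℝ) (U : Finset (Fin T × Λ)) (s : Cfg T Λ) :
    (Tp T Λ → ℝ) → ℝ :=
  EG G Y (fun _ => 0) s (G.gs (yw y) s) id fun w _ => w.filter (Hit U)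

/-- the marks of the colour `D` among the purple loops. -/
noncomputable def mk (D : Lp T Λ → ℝ) (Y : ℝ) (g : Lp T Λ) : ℝ := D g / yw Y g

variable {G : Bs T Λ} {y y' Y : ℝ} {μ W D : Lp T Λ → ℝ} {s : Cfg T Λ} {x w A : Finset (Lp T Λ)}

theorem bt_mem (h0 : 0 ≤ Y) (h1 : Y ≤ 1) (s : Cfg T Λ) (v : Fin T × Λ) :
    0 ≤ (G.mdl Y s).b v ∧ (G.mdl Y s).b v ≤ 1 := by
  simp only [Bs.mdl, kill, Top.bt]; split_ifs <;> simp [h0, h1]

theorem pn_add (h : G.Val (s.add x)) : pin G.ex G.ey (G.pn s) x = G.pn (s.add x) := by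
  obtain ⟨ξ, -, hξ⟩ := qq_supp h
  funext r
  simp only [Bs.pn, Cfg.add] at hξ ⊢
  simp only [pin, cn_eq hξ, cn_eq (subset_union_left.trans hξ),
    cn_eq (subset_union_right.trans hξ), pts_union, tch, mem_union]
  by_cases a : (r, G.ex r) ∈ pts s.e <;> by_cases b : (r, G.ey r) ∈ pts s.e <;>
    by_cases c : (r, G.ex r) ∈ pts x <;> by_cases e : (r, G.ey r) ∈ pts x <;> simp [a, b, c, e]

theorem b_add (Y : ℝ) (s : Cfg T Λ) (x : Finset (Lp T Λ)) :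
    kill (G.mdl Y s).b (pts x) = (G.mdl Y (s.add x)).b := by
  funext v
  simp only [Bs.mdl, kill, Cfg.K_add, mem_union]
  by_cases a : v ∈ s.K <;> by_cases b : v ∈ pts x <;> simp [a, b]

/-- support of the purple and marked loops. -/
def SpC (G : Bs T Λ) (μ : Lp T Λ → ℝ) (s : Cfg T Λ) (c : Finset (Lp T Λ) × Finset (Lp T Λ)) : Prop :=
  (∃ ξ, Pw (G.pn s) ξ ≠ 0 ∧ c.1 ⊆ L G.ex G.ey ξ) ∧ (∀ g ∈ c.1, ¬ Hit s.K g) ∧ c.2 ⊆ c.1 ∧
    ∀ g ∈ c.2, μ g ≠ 0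

theorem pl_JC (hG : G.Ok) (h0 : 0 ≤ Y) (h1 : Y ≤ 1) (hμ : ∀ g, 0 ≤ μ g ∧ μ g ≤ 1) (s : Cfg T Λ) :
    PL (JC G Y μ s) (SpC G μ s) :=
  ((pl_J (hG.pn s) (bt_mem h0 h1 s) hμ).map Prod.snd).weaken fun _ ⟨ω, ⟨a, b, c, d, e⟩, h⟩ =>
    h ▸ ⟨⟨ω.1, a, b⟩, fun g hg hh => c g hg (by rw [← Bs.u_yw, Cfg.u, off, if_pos hh]), d, e⟩

theorem JC_const (G : Bs T Λ) (c : ℝ) : JC G Y μ s (fun _ => c) = c := by
  simp only [JC, J, Pe.av_const, ← sum_mul, sum_Pw, one_mul]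

theorem JC_purple (f : Finset (Lp T Λ) → ℝ) : JC G Y μ s (fun c => f c.1) = PC G Y s f :=
  J_purple fun _ => f

theorem pl_PC (hG : G.Ok) (h0 : 0 ≤ Y) (h1 : Y ≤ 1) (s : Cfg T Λ) : PL (PC G Y s) fun C =>
    (∃ ξ, Pw (G.pn s) ξ ≠ 0 ∧ C ⊆ L G.ex G.ey ξ) ∧ ∀ g ∈ C, ¬ Hit s.K g := by
  have := ((pl_JC (μ := fun _ => 0) hG h0 h1 (by simp) s).map Prod.fst).weaken
    (Sp' := fun C => (∃ ξ, Pw (G.pn s) ξ ≠ 0 ∧ C ⊆ L G.ex G.ey ξ) ∧ ∀ g ∈ C, ¬ Hit s.K g)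
    fun _ ⟨c, hc, h⟩ => h ▸ ⟨hc.1, hc.2.1⟩
  simpa only [JC_purple] using this

theorem SpC.val (hs : G.Val s) {c : Finset (Lp T Λ) × Finset (Lp T Λ)} (hG : G.Ok)
    (h : SpC G μ s c) : G.Val (s.add c.1) := by
  obtain ⟨⟨ξ, h1, h2⟩, -⟩ := h
  refine hs.add fun h0 => h1 ?_
  have := (sum_eq_zero_iff_of_nonneg fun ξ _ => mul_nonneg (Pw_nonneg (hG.pn s) ξ)
    (by split_ifs <;> norm_num)).1 h0 ξ (mem_univ _)
  simpa [h2] using this

section EG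
variable {A0 : Type} [Fintype A0] [DecidableEq A0] {ν : A0 → ℝ} {w0 : A0 → Finset (Lp T Λ)}
  {B0 : A0 → Finset (Lp T Λ) → Finset (Lp T Λ)}

theorem pl_EG (hG : G.Ok) (h0 : 0 ≤ Y) (h1 : Y ≤ 1) (hμ : ∀ g, 0 ≤ μ g ∧ μ g ≤ 1)
    (hν : ∀ a, 0 ≤ ν a) : PL (EG G Y μ s ν w0 B0) fun ω => ∃ a c, ν a ≠ 0 ∧
      SpC G μ (s.add (w0 a)) c ∧ ω = (w0 a, c.1, B0 a c.2) where
  mono f f' h := (pl_ex hν).mono _ _ fun a ha => (pl_JC hG h0 h1 hμ _).mono _ _ fun c hc =>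
    h _ ⟨a, c, ha, hc, rfl⟩
  add f f' := by
    unfold EG; rw [← ex_add]
    exact congrArg _ (funext fun a => (pl_JC hG h0 h1 hμ _).add _ _)
  mul r f := by
    unfold EG; rw [← ex_mul]
    exact congrArg _ (funext fun a => (pl_JC hG h0 h1 hμ _).mul _ _)

theorem EG_fst (P : Finset (Lp T Λ) → Prop) :
    pb (EG G Y μ s ν w0 B0) (fun ω => P ω.1) = pb (Op.ex ν) fun a => P (w0 a) := by
  classical
  rw [pb_eq, pb_eq, EG]
  refine congrArg (Op.ex ν) (funext fun a => ?_)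
  rw [← JC_const (Y := Y) (μ := μ) (s := s.add (w0 a)) G (Op.ind (fun a => P (w0 a)) a)]
  rfl

/-- bounds in the children. -/
theorem EG_le (hν : Pr ν) {P : Tp T Λ → Prop} {e : ℝ} (h : ∀ a, ν a ≠ 0 →
    pb (JC G Y μ (s.add (w0 a))) (fun c => P (w0 a, c.1, B0 a c.2)) ≤ e) :
    pb (EG G Y μ s ν w0 B0) P ≤ e :=
  ((pl_ex hν.nn).mono _ (fun _ => e) h).trans_eq (hν.ex_const e)

end EG

theorem pb_purple (P : Finset (Lp T Λ) → Prop) :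
    pb (JC G Y μ s) (fun c => P c.1) = pb (PC G Y s) P := by
  unfold pb; rw [← JC_purple (μ := μ)]; rfl

theorem mk_mem (hW : ∀ g, 0 ≤ D g ∧ D g ≤ yw Y g) (g : Lp T Λ) : 0 ≤ mk D Y g ∧ mk D Y g ≤ 1 :=
  ⟨div_nonneg (hW g).1 ((hW g).1.trans (hW g).2),
    div_le_one_of_le₀ (hW g).2 ((hW g).1.trans (hW g).2)⟩

theorem u_mk (hW : ∀ g, 0 ≤ D g ∧ D g ≤ yw Y g) (s : Cfg T Λ) (g : Lp T Λ) :
    s.u D g = ub (G.mdl Y s).b g * mk D Y g := by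
  rw [← Bs.u_yw, Cfg.u, Cfg.u, off, off, mk]
  split_ifs
  · simp
  · by_cases h : yw Y g = 0
    · rw [h, zero_mul]; exact le_antisymm ((hW g).2.trans_eq h) (hW g).1
    · field_simp

/-- marked up loops given the down loops. -/
theorem mkE_eq_JC (hs : G.Val s) (hx : G.Val (s.add x))
    (hD : ∀ g, D g = ub (G.mdl Y s).b g * μ g) (f : Finset (Lp T Λ) → ℝ) :
    mkE (Pw (G.pn s)) (L G.ex G.ey) D x f = JC G Y μ (s.add x) fun c => f c.2 := by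
  rw [mkE_eq_J ((Pl.val_add hs).1 hx) hD, pn_add hx, b_add]; rfl

/-- **the kernel of the ladder.** -/
theorem kB_eq (hG : G.Ok) (hW : ∀ g, 0 ≤ D g ∧ D g ≤ yw Y g) (hs : G.Val s)
    (hA : G.Val (s.add A)) (f : Finset (Lp T Λ) → ℝ) :
    kB (Pw (G.pn s)) (L G.ex G.ey) (s.u (yw y')) (s.u D) A f =
      EK G y' Y (mk D Y) (s.add A) fun ω => f ω.2.2 := by
  rw [kB, show qP (Pw (G.pn s)) (L G.ex G.ey) = G.q s from rfl, Pl.med_eq hG hs hA]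
  refine ex_congr fun w hw => ?_
  have := hA.add (Bs.gs_supp hw).1
  rw [Cfg.add_add] at this
  rw [mkE_eq_JC hs this (u_mk hW s), id, Cfg.add_add]

theorem hE_eq (Y : ℝ) (f : Finset (Lp T Λ) → ℝ) :
    G.hE W y' s f = EH G W y' Y s fun ω => f ω.2.2 := by
  simp only [Bs.hE, EH, EG, JC_const]

theorem gs_eq (Y : ℝ) (U : Finset (Fin T × Λ)) (f : Finset (Lp T Λ) → ℝ) :
    Op.ex (G.gs (yw y) s) (fun w => f (w.filter (Hit U))) = EU G y Y U s fun ω => f ω.2.2 := by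
  simp only [EU, EG, JC_const]

theorem pr_m2 (hG : G.Ok) (hy : 0 ≤ y') (hW : ∀ g, 0 ≤ W g - yw y' g) (s : Cfg T Λ) :
    Pr (Pl.m2 G W y' s) :=
  pr_nu (hG.cpt s).qL (Pc.two_nn (Cfg.u_nn (yw_nn hy) s) (Cfg.u_nn hW s))

theorem m2_val (hs : G.Val s) {X : Finset (Lp T Λ × Bool)} (h : Pl.m2 G W y' s X ≠ 0) :
    G.Val (s.add (fg X)) := hs.add (qL_supp (nu_supp h).1).2

open Classical in
/-- the number of loops with a property. -/
noncomputable def ct (P : Lp T Λ → Prop) (B : Finset (Lp T Λ)) : ℝ := ∑ g ∈ B, if P g then 1 else 0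

theorem NmC_eq (hW : ∀ g, 0 ≤ D g ∧ D g ≤ yw Y g) (hs : G.Val s) (P : Lp T Λ → Prop) :
    G.NmC y' D s P = EK G y' Y (mk D Y) s fun ω => ct P ω.2.2 := by
  refine ex_congr fun w hw => ?_
  refine Eq.trans ?_ (mkE_eq_JC hs (hs.add (Bs.gs_supp hw).1) (u_mk hW s) (ct P))
  refine Eq.trans (sum_congr rfl fun g _ => ?_) (mkE_sum w _).symm
  by_cases h : P g <;> simp [h, qP_eq, Bs.q]

theorem birth_eq (hG : G.Ok) (hW : ∀ g, 0 ≤ D g ∧ D g ≤ yw Y g) (hs : G.Val s)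
    (P : Lp T Λ → Prop) :
    ∑ g, s.u D g * G.q s {g} * TK.i1 (P g) = JC G Y (mk D Y) s fun c => ct P c.2 := by
  have := mkE_eq_JC (x := ∅) hs (by rwa [Cfg.add_empty]) (u_mk hW s) (ct P)
  rw [Cfg.add_empty] at this
  rw [← this]
  refine Eq.trans (sum_congr rfl fun g _ => ?_) (mkE_sum ∅ _).symm
  have e : up (qP (Pw (G.pn s)) (L G.ex G.ey)) ∅ g = G.q s {g} := by
    rw [up, if_neg (notMem_empty g), sh, empty_union, qP_eq, (cpt_qq (hG.pn s)).empty, div_one]; rfl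
  rw [e, TK.i1]; ring

theorem ct_nn (P : Lp T Λ → Prop) (B : Finset (Lp T Λ)) : 0 ≤ ct P B :=
  sum_nonneg fun _ _ => by split_ifs <;> norm_num

theorem ct_le (P : Lp T Λ → Prop) (B : Finset (Lp T Λ)) : ct P B ≤ B.card :=
  (sum_le_card_nsmul _ _ 1 fun _ _ => by split_ifs <;> norm_num).trans (by simp)

theorem ct_zero {P : Lp T Λ → Prop} {B : Finset (Lp T Λ)} (h : ∀ g ∈ B, ¬ P g) : ct P B ≤ 0 :=
  (sum_eq_zero fun g hg => if_neg (h g hg)).le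

theorem ct_or {P P1 P2 : Lp T Λ → Prop} {B : Finset (Lp T Λ)} (h : ∀ g ∈ B, P g → P1 g ∨ P2 g) :
    ct P B ≤ ct P1 B + ct P2 B := by
  unfold ct; rw [← sum_add_distrib]
  refine sum_le_sum fun g hg => ?_
  have := h g hg
  split_ifs <;> first | tauto | norm_num

/-- at most `N` alive loops. -/
theorem SpC.card_le {N : ℕ} (hN : s.Sup N) {c : Finset (Lp T Λ) × Finset (Lp T Λ)}
    (h : SpC G μ (s.add w) c) : c.2.card ≤ N := by
  obtain ⟨S, h1, h2⟩ := hN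
  obtain ⟨⟨ξ, -, h3⟩, h4, h5, -⟩ := h
  refine (card_le_card (subset_inter (h5.trans h3) h5)).trans ((card_L_le ξ fun g hg x hx =>
    h2 (0, x) fun hz => h4 g hg ⟨_, hx, mem_union_left _ hz⟩).trans h1)

end Crest.Agent.N337.Ld
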