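import Crest.Agent.N337.Ld.GcP
import Crest.Agent.N337.M.Ctx

/-!
# Row 337 (helper77): thin colours against the prices of the covering bound
-/

set_option autoImplicit false

namespace Crest.Agent.N337.Ld

open Crest.Agent.N337.M Crest.Agent.N337.Par

/-- the field `sm` of `Rg.N3n` on the tiers. -/
theorem sm_yl {n u m : ℕ} (h : Bg n u) {Yp δ : ℝ} (hY : yl u (3 * m) ≤ Yp)
    (hδ : δ ≤ 3 / Tf u (3 * m - 1)) (l : ℕ) (hl : l < m) :
    1 / 2 ≤ Yp ^ C9.Vn n (x u l 12) ∧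
      ∀ r ≤ x u l 12, 2 * δ * C9.Vn n (x u l 12) ≤ tauX u l r := by
  have hu := h.hu
  have hn := h.hn
  have e1 := tb_eq (3 * m)
  have e2 := tb_eq (3 * m - 1)
  have v : C9.Vn n (x u l 12) ≤ Y u (48 * l + 24) := by
    unfold C9.Vn; tier! (48 * l + 23)
  refine ⟨le_trans ?_ (pow_le_pow_left₀ (yl_nn _ _) hY _), fun r _ => le_trans ?_ (tauX_ge u l r)⟩
  · rw [yl, if_neg (by omega), Tf_ne (by omega)]
    refine half_le_pow (Yr_pos _ _) ?_
    have : 2 * C9.Vn n (x u l 12) ≤ Y u (tb (3 * m) + 6) := by tier! (48 * l + 24)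
    exact_mod_cast this
  · rw [Tf_ne (by omega)] at hδ
    have b1 : 6 * C9.Vn n (x u l 12) * x u l 4 ≤ Y u (tb (3 * m - 1) + 6) := by tier! (48 * l + 24)
    have b2 : (6 * C9.Vn n (x u l 12) * x u l 4 : ℝ) ≤ Y u (tb (3 * m - 1) + 6) := by
      exact_mod_cast b1
    have y0 := Yr_pos u (tb (3 * m - 1) + 6)
    have y1 := Yr_pos u (48 * l + 11 + 4)
    refine (mul_le_mul_of_nonneg_right (mul_le_mul_of_nonneg_left hδ two_pos.le)
      (Nat.cast_nonneg _)).trans ?_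
    rw [sx, s, ← one_div, mul_div_assoc', div_mul_eq_mul_div, div_le_div_iff₀ y0 y1]
    linarith

end Crest.Agent.N337.Ld
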