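import Crest.Agent.N337.Ld.Gc
import Crest.Agent.N337.Ld.Grd

/-!
# Row 337 (helper77): `Cx.UL` for unions of grid cubes, `Cx.Sm` for thin top colours
-/

set_option autoImplicit false
set_option linter.unusedSectionVars false

namespace Crest.Agent.N337.Ld

open Finset Crest.Agent.N337.Free Crest.Agent.N337.I Crest.Agent.N337.M Crest.Agent.N337.Rg
  Crest.Agent.N337.Gas

variable {L n T : ℕ} [NeZero L] [NeZero T] {ex ey : Fin T → Tor 3 L × Fin n} {P : I.Num}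
  {z0 : Tor 3 L} {c : Cx T (Tor 3 L × Fin n) (Tor 3 L)}

/-- **`UL`**: the cells in which no octant dies are far from the newly killed cubes. -/
theorem ul_grd (hπ : c.π = Prod.fst)
    (hJ : ∀ k y, ∀ v ∈ c.J0 k y, (sys n T P z0).d y (c.π v.2) ≤ c.lo k)
    (hσ : ∀ k < c.μ, 2 * P.sep k ≤ P.σ k) {C : Finset (Tor 3 L × Fin n)}
    (hC : ∀ k < c.μ, Grd z0 (P.σ k) C) (s : Cfg T (Tor 3 L × Fin n)) (x : Tor 3 L) :
    (c.rt x).UL (ins ex ey P z0) s (A.cyl C) ((ins ex ey P z0).kz (s.Z ∪ A.cyl C)) := by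
  intro k hk y _ ho v hv u hu hZ
  have a1 : P.σ k < 2 * tdist y u.2.1 := lt_of_not_ge fun h =>
    absurd ho (not_le.2 ((hC k hk).oct_lt (A.mem_cyl.1 hu) hZ h))
  have a2 := hJ k y v hv
  have a3 := tdist_triangle y v.2.1 u.2.1
  have a4 := hσ k hk
  rw [hπ] at a2
  change tdist y v.2.1 ≤ _ at a2
  change P.sep k < tdist (c.π v.2) (c.π u.2) + 2 * c.lo k
  rw [hπ]
  omega

/-- a loop that stays near one of its points has few windings. -/
theorem wd_short (hπ : c.π = Prod.fst) {k r : ℕ} {v : V L n T} {g : Lp T (Tor 3 L × Fin n)}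
    (h : ¬ c.Lng (sys n T P z0) k r v g) : wd g ≤ C9.Vn n r := by
  refine (card_le_card (t := (univ.filter fun y => tdist v.2.1 y ≤ r) ×ˢ (univ : Finset (Fin n)))
    fun y hy => mem_product.2 ⟨mem_filter.2 ⟨mem_univ _, ?_⟩, mem_univ _⟩).trans ?_
  · have : ¬ r < tdist (c.π v.2) (c.π y) + 2 * c.lo k := fun a => h ⟨_, (mem_filter.1 hy).2, a⟩
    rw [hπ] at this
    omega
  · rw [card_product, card_univ, Fintype.card_fin, mul_comm]
    exact Nat.mul_le_mul_left _ (card_ball_le _ _)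

/-- **`Sm`**: the top colour is thin on small loops. -/
theorem sm_thin (hπ : c.π = Prod.fst) {D : Lp T (Tor 3 L × Fin n) → ℝ} {Y Tf : ℝ} (h0 : 0 ≤ Y)
    (h1 : Y ≤ 1) (hD : ∀ g, D g * Tf ≤ 3 * wd g) (hτ : ∀ k r, 0 ≤ c.τ k r)
    (h : ∀ k < c.μ, 0 < Tf ∧ 1 / 2 ≤ Y ^ C9.Vn n (P.sep k) ∧
      ∀ r ≤ P.sep k, 6 * C9.Vn n (P.sep k) ≤ c.τ k r * Tf) : c.Sm (sys n T P z0) D Y := by
  intro k hk r hr v g _ hg
  obtain ⟨a1, a2, a3⟩ := h k hk
  have b1 : wd g ≤ C9.Vn n (P.sep k) := (wd_short hπ hg).trans (by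
    have : r ≤ P.sep k := hr
    unfold C9.Vn; gcongr)
  have b2 : 1 / 2 ≤ yw Y g := by rw [yw_eq]; exact a2.trans (pow_le_pow_of_le_one h0 h1 b1)
  have b3 : (wd g : ℝ) ≤ C9.Vn n (P.sep k) := by exact_mod_cast b1
  refine le_of_mul_le_mul_right ?_ a1
  have b4 := mul_le_mul_of_nonneg_left b2 (mul_nonneg (hτ k r) a1.le)
  have b5 := a3 r hr
  have b6 := hD g
  linarith

/-- the purple fugacity `exp (-1 / K)` is harmless on `V ≤ K / 2` windings. -/
theorem half_le_pow {K : ℝ} {V : ℕ} (hK : 0 < K) (h : 2 * V ≤ K) :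
    1 / 2 ≤ Real.exp (-1 / K) ^ V := by
  rw [← Real.exp_nat_mul]
  refine le_trans ?_ (Real.add_one_le_exp _)
  have : (V : ℝ) / K ≤ 1 / 2 := by rw [div_le_iff₀ hK]; linarith
  rw [mul_div, mul_neg, mul_one, neg_div]
  linarith

end Crest.Agent.N337.Ld
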